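import Vale.Agent.P254.FV.Minor

/-!
The determinant of the covariance matrix.
-/

open Set Matrix

namespace Vale.Agent.P254.FV

variable {n : ℕ}

/-- bordered matrix -/
def bord {N : ℕ} (x : ℝ) (y z : Fin N → ℝ) (G : Matrix (Fin N) (Fin N) ℝ) :
    Matrix (Fin (N + 1)) (Fin (N + 1)) ℝ :=
  Matrix.of (Fin.cons (Fin.cons x y : Fin (N + 1) → ℝ)
    (fun i => (Fin.cons (z i) (G i) : Fin (N + 1) → ℝ)))

theorem det_bord_zero {N : ℕ} (x : ℝ) (y : Fin N → ℝ) (G : Matrix (Fin N) (Fin N) ℝ) :
    (bord x y 0 G).det = x * G.det := by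
  rw [det_succ_column_zero, Fin.sum_univ_succ]
  have h2 : ∀ i : Fin N, (-1 : ℝ) ^ (i.succ : ℕ) * bord x y 0 G i.succ 0 *
      ((bord x y 0 G).submatrix i.succ.succAbove Fin.succ).det = 0 := by
    intro i
    simp [bord]
  rw [Finset.sum_eq_zero fun i _ => h2 i, add_zero]
  have h3 : bord x y 0 G 0 0 = x := by simp [bord]
  have h4 : (bord x y 0 G).submatrix (Fin.succAbove 0) Fin.succ = G := by
    ext i j
    simp [bord]
  rw [h3, h4]
  simp

/-- Schur complement -/
theorem det_bord {N : ℕ} {x : ℝ} (hx : x ≠ 0) (y z : Fin N → ℝ) (G : Matrix (Fin N) (Fin N) ℝ) :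
    (bord x y z G).det = x * (Matrix.of fun i j => G i j - z i * y j / x).det := by
  rw [← det_bord_zero x y]
  refine det_eq_of_forall_row_eq_smul_add_const (Fin.cons 0 (fun i => z i / x)) 0 rfl ?_
  intro i j
  refine Fin.cases ?_ (fun k => ?_) i
  · simp [bord]
  · refine Fin.cases ?_ (fun l => ?_) j
    · simp [bord]
      field_simp
    · simp [bord]
      ring

theorem det_bord_add {N : ℕ} (x x' : ℝ) (y z : Fin N → ℝ) (G : Matrix (Fin N) (Fin N) ℝ) :
    (bord (x + x') y z G).det = (bord x y z G).det + x' * G.det := by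
  rw [det_succ_row_zero, det_succ_row_zero (bord x y z G), Fin.sum_univ_succ, Fin.sum_univ_succ]
  have h1 : ∀ i : Fin N, (-1 : ℝ) ^ (i.succ : ℕ) * bord (x + x') y z G 0 i.succ *
      ((bord (x + x') y z G).submatrix Fin.succ i.succ.succAbove).det =
      (-1 : ℝ) ^ (i.succ : ℕ) * bord x y z G 0 i.succ *
      ((bord x y z G).submatrix Fin.succ i.succ.succAbove).det := by
    intro i
    rfl
  simp_rw [h1]
  have h4 : (bord (x + x') y z G).submatrix Fin.succ (Fin.succAbove 0) = G := by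
    ext i j
    simp [bord]
  have h5 : (bord x y z G).submatrix Fin.succ (Fin.succAbove 0) = G := by
    ext i j
    simp [bord]
  rw [h4, h5]
  simp [bord]
  ring

/-- `M Mᵀ` -/
noncomputable def gram (v : Fin (n + 2) → Fin n → ℝ) : Matrix (Fin (n + 1)) (Fin (n + 1)) ℝ :=
  Matrix.of fun i j => ∑ k, hom (v k) i * hom (v k) j

theorem bord_gram (v : Fin (n + 2) → Fin n → ℝ) (u : Fin (n + 2) → ℝ) :
    bord (∑ k, u k * u k) (fun j => ∑ k, u k * hom (v k) j) (fun j => ∑ k, u k * hom (v k) j)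
      (gram v) = Q v u * (Q v u)ᵀ := by
  ext i j
  rw [Matrix.mul_apply]
  refine Fin.cases ?_ (fun k => ?_) i
  · refine Fin.cases ?_ (fun l => ?_) j
    · simp [bord, Q]
    · simp [bord, Q]
  · refine Fin.cases ?_ (fun l => ?_) j
    · simp [bord, Q, mul_comm]
    · simp [bord, Q, gram]

theorem det_bord_gram (v : Fin (n + 2) → Fin n → ℝ) (u : Fin (n + 2) → ℝ) :
    (bord (∑ k, u k * u k) (fun j => ∑ k, u k * hom (v k) j) (fun j => ∑ k, u k * hom (v k) j)
      (gram v)).det = (∑ k, u k * minor v k) ^ 2 := by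
  rw [bord_gram, det_mul, det_transpose, det_Q, sq]

theorem det_gram {v : Fin (n + 2) → Fin n → ℝ} (h : ∃ k, minor v k ≠ 0) :
    (gram v).det = ∑ k, minor v k * minor v k := by
  have h0 : 0 < ∑ k, minor v k * minor v k := by
    obtain ⟨k, hk⟩ := h
    exact Finset.sum_pos' (fun i _ => mul_self_nonneg _) ⟨k, Finset.mem_univ k, mul_self_pos.2 hk⟩
  have h1 := det_bord_gram v (minor v)
  have h2 : (fun j => ∑ k, minor v k * hom (v k) j) = 0 := by
    ext j
    rw [Pi.zero_apply, ← hom_minor v j]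
    exact Finset.sum_congr rfl fun k _ => mul_comm _ _
  rw [h2, det_bord_zero, sq] at h1
  exact mul_left_cancel₀ h0.ne' h1

theorem det_gram_sub {v : Fin (n + 2) → Fin n → ℝ} (h : ∃ k, minor v k ≠ 0)
    (u : Fin (n + 2) → ℝ) :
    (Matrix.of fun i j => gram v i j - (∑ k, u k * hom (v k) i) * (∑ k, u k * hom (v k) j)).det =
      (∑ k, u k * minor v k) ^ 2 + (1 - ∑ k, u k * u k) * ∑ k, minor v k * minor v k := by
  have h1 := det_bord one_ne_zero (fun j => ∑ k, u k * hom (v k) j)
    (fun j => ∑ k, u k * hom (v k) j) (gram v)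
  have h2 := det_bord_add (∑ k, u k * u k) (1 - ∑ k, u k * u k) (fun j => ∑ k, u k * hom (v k) j)
    (fun j => ∑ k, u k * hom (v k) j) (gram v)
  rw [add_sub_cancel, h1, det_bord_gram, det_gram h, one_mul] at h2
  simp only [div_one] at h2
  exact h2

theorem det_Z (v : Fin (n + 2) → Fin n → ℝ) {P : ℝ} (hP : P = ∑ k, max (minor v k) 0)
    (hP0 : 0 < P) :
    (Matrix.of fun a b => ∑ k, v k a * v k b
        - (∑ k, max (minor v k) 0 / P * v k a) * (∑ k, max (minor v k) 0 / P * v k b)
        - (∑ k, v k a - ∑ k, max (minor v k) 0 / P * v k a) *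
          (∑ k, v k b - ∑ k, max (minor v k) 0 / P * v k b) / ((n : ℝ) + 1)).det =
      P ^ 2 * (1 - (1 - ∑ k, (max (minor v k) 0 / P) ^ 2) *
        (1 - ∑ k, (max (-minor v k) 0 / P) ^ 2)) / ((n : ℝ) + 1) := by
  have hne : ∃ k, minor v k ≠ 0 := by
    by_contra hc
    push Not at hc
    rw [hP] at hP0
    simp [hc] at hP0
  have hn1 : ((n : ℝ) + 1) ≠ 0 := by positivity
  set u : Fin (n + 2) → ℝ := fun k => max (minor v k) 0 / P with hu
  have hu1 : ∑ k, u k = 1 := by
    simp only [hu]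
    rw [← Finset.sum_div, ← hP, div_self hP0.ne']
  have h1 := det_gram_sub hne u
  have h2 : (Matrix.of fun i j => gram v i j - (∑ k, u k * hom (v k) i) *
      (∑ k, u k * hom (v k) j)) = bord ((n : ℝ) + 1) (fun a => ∑ k, v k a - ∑ k, u k * v k a)
        (fun a => ∑ k, v k a - ∑ k, u k * v k a)
        (Matrix.of fun a b => ∑ k, v k a * v k b - (∑ k, u k * v k a) * (∑ k, u k * v k b)) := by
    ext i j
    refine Fin.cases ?_ (fun k => ?_) i
    · refine Fin.cases ?_ (fun l => ?_) j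
      · simp [bord, gram, hom, hu1]
        ring
      · simp [bord, gram, hom, hu1]
    · refine Fin.cases ?_ (fun l => ?_) j
      · simp [bord, gram, hom, hu1]
      · simp [bord, gram, hom]
  rw [h2, det_bord hn1] at h1
  have h3 : (Matrix.of fun a b => ∑ k, v k a * v k b
        - (∑ k, u k * v k a) * (∑ k, u k * v k b)
        - (∑ k, v k a - ∑ k, u k * v k a) *
          (∑ k, v k b - ∑ k, u k * v k b) / ((n : ℝ) + 1)).det =
      ((∑ k, u k * minor v k) ^ 2 + (1 - ∑ k, u k * u k) * ∑ k, minor v k * minor v k) /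
        ((n : ℝ) + 1) := by
    rw [← h1, mul_div_cancel_left₀ _ hn1]
    rfl
  rw [h3]
  congr 1
  have e1 : ∑ k, u k * minor v k = P * ∑ k, u k ^ 2 := by
    rw [Finset.mul_sum]
    refine Finset.sum_congr rfl fun k _ => ?_
    simp only [hu]
    rcases le_total 0 (minor v k) with h | h
    · rw [max_eq_left h]
      field_simp
    · rw [max_eq_right h]
      simp
  have e2 : ∑ k, minor v k * minor v k =
      P ^ 2 * (∑ k, u k ^ 2 + ∑ k, (max (-minor v k) 0 / P) ^ 2) := by
    rw [← Finset.sum_add_distrib, Finset.mul_sum]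
    refine Finset.sum_congr rfl fun k _ => ?_
    simp only [hu]
    rcases le_total 0 (minor v k) with h | h
    · rw [max_eq_left h, max_eq_right (by linarith)]
      field_simp
      ring
    · rw [max_eq_right h, max_eq_left (by linarith)]
      field_simp
      ring
  have e3 : ∑ k, u k * u k = ∑ k, u k ^ 2 := Finset.sum_congr rfl fun k _ => (sq _).symm
  rw [e1, e2, e3]
  ring

end Vale.Agent.P254.FV
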