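import Vale.Agent.P254.FV.Mom
import Vale.Agent.P254.FV.Det

/-!
The isotropic constant of the hull of `n + 2` points.
-/

open MeasureTheory Set Matrix

namespace Vale.Agent.P254.FV

variable {n : ℕ}

/-- `∑ (c⁺ / P)²` with `P = ∑ c⁺`. -/
noncomputable def sqp {N : ℕ} (c : Fin N → ℝ) : ℝ :=
  ∑ k, (max (c k) 0 / ∑ j, max (c j) 0) ^ 2

/-- The value for a simplex. -/
noncomputable def simpC (n : ℕ) : ℝ :=
  (n.factorial : ℝ) ^ 2 / (((n : ℝ) + 1) * (((n : ℝ) + 1) * ((n : ℝ) + 2)) ^ n)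

theorem simpC_pos (n : ℕ) : 0 < simpC n := by
  unfold simpC
  positivity

section sums

variable {N : ℕ} {c : Fin N → ℝ}

theorem posSum_pos (h : ∃ k, 0 < c k) : 0 < ∑ j, max (c j) 0 := by
  obtain ⟨k, hk⟩ := h
  exact Finset.sum_pos' (fun i _ => le_max_right _ _) ⟨k, Finset.mem_univ k, lt_max_of_lt_left hk⟩

theorem exists_pos_of_sum (h0 : ∑ k, c k = 0) (h : ∃ k, c k ≠ 0) : ∃ k, 0 < c k := by
  by_contra hc
  push Not at hc
  obtain ⟨k, hk⟩ := h
  have := (Finset.sum_eq_zero_iff_of_nonpos fun i _ => hc i).1 h0 k (Finset.mem_univ k)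
  exact hk this

theorem posSum_neg (h0 : ∑ k, c k = 0) : ∑ j, max (-c j) 0 = ∑ j, max (c j) 0 := by
  have : ∑ j, max (c j) 0 - ∑ j, max (-c j) 0 = ∑ k, c k := by
    rw [← Finset.sum_sub_distrib]
    refine Finset.sum_congr rfl fun k _ => ?_
    rcases le_total 0 (c k) with h | h
    · rw [max_eq_left h, max_eq_right (by linarith)]
      ring
    · rw [max_eq_right h, max_eq_left (by linarith)]
      ring
  linarith

theorem sqp_smul {t : ℝ} (ht : 0 < t) (c : Fin N → ℝ) : sqp (fun k => t * c k) = sqp c := by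
  unfold sqp
  have e : ∀ k, max (t * c k) 0 = t * max (c k) 0 := fun k => by
    rw [mul_max_of_nonneg _ _ ht.le, mul_zero]
  simp_rw [e]
  rw [← Finset.mul_sum]
  refine Finset.sum_congr rfl fun k _ => ?_
  rw [mul_div_mul_left _ _ ht.ne']

theorem wt_nonneg (k : Fin N) : 0 ≤ max (c k) 0 / ∑ j, max (c j) 0 :=
  div_nonneg (le_max_right _ _) (Finset.sum_nonneg fun _ _ => le_max_right _ _)

theorem wt_sum (h : ∃ k, 0 < c k) : ∑ k, max (c k) 0 / ∑ j, max (c j) 0 = 1 := by
  rw [← Finset.sum_div, div_self (posSum_pos h).ne']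

theorem wt_le_one (h : ∃ k, 0 < c k) (k : Fin N) : max (c k) 0 / ∑ j, max (c j) 0 ≤ 1 := by
  rw [← wt_sum h]
  exact Finset.single_le_sum (f := fun k => max (c k) 0 / ∑ j, max (c j) 0)
    (fun i _ => wt_nonneg i) (Finset.mem_univ k)

theorem sqp_le_one (h : ∃ k, 0 < c k) : sqp c ≤ 1 := by
  rw [← wt_sum h]
  refine Finset.sum_le_sum fun k _ => ?_
  have h1 := wt_nonneg (c := c) k
  have h2 := wt_le_one h k
  nlinarith

theorem sqp_pos (h : ∃ k, 0 < c k) : 0 < sqp c := by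
  obtain ⟨k, hk⟩ := h
  refine Finset.sum_pos' (fun i _ => sq_nonneg _) ⟨k, Finset.mem_univ k, ?_⟩
  have := posSum_pos ⟨k, hk⟩
  have : 0 < max (c k) 0 := lt_max_of_lt_left hk
  positivity

theorem sqp_eq_one (h : ∃ k, 0 < c k) (h1 : sqp c = 1) : ∃ k, 0 < c k ∧ ∀ j, j ≠ k → c j ≤ 0 := by
  obtain ⟨k, hk⟩ := h
  refine ⟨k, hk, fun j hj => ?_⟩
  by_contra hc
  push Not at hc
  rw [← wt_sum ⟨k, hk⟩] at h1
  have h2 : ∀ i ∈ (Finset.univ : Finset (Fin N)), (max (c i) 0 / ∑ j, max (c j) 0) ^ 2 ≤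
      max (c i) 0 / ∑ j, max (c j) 0 := by
    intro i _
    have h1 := wt_nonneg (c := c) i
    have h2 := wt_le_one ⟨k, hk⟩ i
    nlinarith
  have h3 := (Finset.sum_eq_sum_iff_of_le h2).1 h1
  have h4 : ∀ i, 0 < c i → max (c i) 0 / ∑ j, max (c j) 0 = 1 := by
    intro i hi
    have h5 := h3 i (Finset.mem_univ i)
    have h6 : 0 < max (c i) 0 / ∑ j, max (c j) 0 :=
      div_pos (lt_max_of_lt_left hi) (posSum_pos ⟨k, hk⟩)
    rw [sq] at h5
    exact mul_left_cancel₀ h6.ne' (by rw [h5, mul_one])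
  have h7 := h4 k hk
  have h8 := h4 j hc
  have h9 : max (c j) 0 / ∑ j, max (c j) 0 + max (c k) 0 / ∑ j, max (c j) 0 ≤ 1 := by
    rw [← wt_sum ⟨k, hk⟩, ← Finset.sum_pair (f := fun k => max (c k) 0 / ∑ j, max (c j) 0) hj]
    exact Finset.sum_le_sum_of_subset_of_nonneg (Finset.subset_univ _) fun k _ _ => wt_nonneg k
  linarith

end sums

/-- the determinant formula, for the minors -/
theorem det_formula (hn : 1 ≤ n) {v : Fin (n + 2) → Fin n → ℝ} (h : ∃ k, 0 < minor v k) :
    (covMatrix (convexHull ℝ (range v))).det / (volume (convexHull ℝ (range v))).toReal ^ 2 =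
      simpC n * (1 - (1 - sqp (minor v)) * (1 - sqp fun k => -minor v k)) := by
  have hP0 := posSum_pos h
  rw [cov_hull hn h rfl hP0, vol_hull hn h rfl, det_smul, det_Z v rfl hP0, Fintype.card_fin]
  unfold sqp
  rw [posSum_neg (sum_minor v)]
  unfold simpC
  rw [one_div, inv_pow]
  field_simp

/-- the determinant formula, for any affine dependence -/
theorem det_formula' (hn : 1 ≤ n) {v : Fin (n + 2) → Fin n → ℝ} (h : ∃ k, minor v k ≠ 0)
    {c : Fin (n + 2) → ℝ} (hc0 : ∃ k, c k ≠ 0) (hc : ∑ k, c k = 0)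
    (hcv : ∀ a, ∑ k, c k * v k a = 0) :
    (covMatrix (convexHull ℝ (range v))).det / (volume (convexHull ℝ (range v))).toReal ^ 2 =
      simpC n * (1 - (1 - sqp c) * (1 - sqp fun k => -c k)) := by
  have h' := exists_pos_of_sum (sum_minor v) h
  obtain ⟨k, hk⟩ := h'
  have hker := ker_minor hk.ne' hc hcv
  have hck : c k ≠ 0 := by
    intro h0
    obtain ⟨j, hj⟩ := hc0
    rw [hker j, h0, zero_div, zero_mul] at hj
    exact hj rfl
  rw [det_formula hn ⟨k, hk⟩]
  set t := c k / minor v k with ht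
  have ht0 : t ≠ 0 := div_ne_zero hck hk.ne'
  congr 1
  rcases lt_or_gt_of_ne ht0 with h1 | h1
  · have e1 : sqp c = sqp fun k => -minor v k := by
      rw [← sqp_smul (neg_pos.2 h1) fun k => -minor v k]
      congr 1
      ext j
      rw [hker j]
      ring
    have e2 : (sqp fun k => -c k) = sqp (minor v) := by
      rw [← sqp_smul (neg_pos.2 h1) (minor v)]
      congr 1
      ext j
      rw [hker j]
      ring
    rw [e1, e2]
    ring
  · have e1 : sqp c = sqp (minor v) := by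
      rw [← sqp_smul h1 (minor v)]
      congr 1
      ext j
      rw [hker j]
    have e2 : (sqp fun k => -c k) = sqp fun k => -minor v k := by
      rw [← sqp_smul h1 fun k => -minor v k]
      congr 1
      ext j
      rw [hker j]
      ring
    rw [e1, e2]

/-- the value of a simplex -/
theorem det_simplex (hn : 1 ≤ n) :
    (covMatrix (stdS n)).det / (volume (stdS n)).toReal ^ 2 = simpC n := by
  let v : Fin (n + 2) → Fin n → ℝ := Fin.cons (stdV n 0) (stdV n)
  have hv : convexHull ℝ (range v) = stdS n := by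
    rw [stdS_eq_convexHull]
    congr 1
    apply Subset.antisymm
    · rintro _ ⟨i, rfl⟩
      refine Fin.cases ?_ (fun k => ?_) i
      · exact ⟨0, rfl⟩
      · exact ⟨k, rfl⟩
    · rintro _ ⟨i, rfl⟩
      exact ⟨i.succ, rfl⟩
  have he : edge (fun j => v ((0 : Fin (n + 2)).succAbove j)) = 1 := by
    ext i k
    simp only [edge, Matrix.of_apply, Fin.zero_succAbove, v, Fin.cons_succ, stdV_succ, stdV_zero]
    rw [Matrix.one_apply, Pi.single_apply]
    simp
  have hm : minor v 0 ≠ 0 := by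
    have := abs_minor v 0
    rw [he, det_one, abs_one] at this
    intro h
    rw [h] at this
    simp at this
  let c : Fin (n + 2) → ℝ := Fin.cons 1 (Fin.cons (-1) fun _ => 0)
  have hc1 : ∑ k, c k = 0 := by
    rw [Fin.sum_univ_succ, Fin.sum_univ_succ]
    simp [c]
  have hc2 : ∀ a, ∑ k, c k * v k a = 0 := by
    intro a
    rw [Fin.sum_univ_succ, Fin.sum_univ_succ]
    simp [c, v]
  have hf := det_formula' hn ⟨0, hm⟩ (c := c) ⟨0, by simp [c]⟩ hc1 hc2
  have hs1 : ∑ k, max (c k) 0 = 1 := by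
    rw [Fin.sum_univ_succ, Fin.sum_univ_succ]
    simp [c]
  have hq1 : sqp c = 1 := by
    unfold sqp
    rw [hs1, Fin.sum_univ_succ, Fin.sum_univ_succ]
    simp [c]
  rw [hv, hq1] at hf
  rw [hf]
  ring

end Vale.Agent.P254.FV
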