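import Vale.Agent.P254.Defs
import Vale.Agent.P254.EllDefs

/-!
A class of convex bodies closed under affine maps, pyramids, direct products and free sums.
-/

open MeasureTheory Set Matrix

namespace Vale.Agent.P254

/-- The volume. -/
noncomputable def cVol {n : ℕ} (K : Set (Fin n → ℝ)) : ℝ := (volume K).toReal

/-- The affine image `A U + b`. -/
def cImg {n : ℕ} (A : Matrix (Fin n) (Fin n) ℝ) (b : Fin n → ℝ) (U : Set (Fin n → ℝ)) :
    Set (Fin n → ℝ) := (fun x => A *ᵥ x + b) '' U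

/-- `K` is a convex body contained in an affine image `U'` of `U` and `|K| ≥ t |U'|`. -/
def Fills {n : ℕ} (t : ℝ) (K U : Set (Fin n → ℝ)) : Prop :=
  IsConvexBody K ∧ ∃ (A : Matrix (Fin n) (Fin n) ℝ) (b : Fin n → ℝ), A.det ≠ 0 ∧
    K ⊆ cImg A b U ∧ t * cVol (cImg A b U) ≤ cVol K

/-- `U` is a convex body symmetric with respect to the hyperplanes `xᵢ = 0`, `i ∈ T`. For
`T = univ` this means unconditional. -/
def SymIn {n : ℕ} (T : Finset (Fin n)) (U : Set (Fin n → ℝ)) : Prop :=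
  IsConvexBody U ∧ ∀ x ∈ U, ∀ y : Fin n → ℝ,
    (∀ i ∈ T, |y i| = |x i|) → (∀ i, i ∉ T → y i = x i) → y ∈ U

/-- The unit ball `{x : ∫ |⟨x, v⟩| dμ(v) ≤ 1}` of a subspace of `L₁(μ)`. -/
def l1Ball {n : ℕ} (μ : Measure (Fin n → ℝ)) : Set (Fin n → ℝ) := {x | ∫ v, |x ⬝ᵥ v| ∂μ ≤ 1}

/-- The pyramid over `K ⊆ ℝⁿ` in `ℝⁿ⁺¹`: convex hull of `{0} × K` and of the apex `(1, 0)`. -/
def pyramid {n : ℕ} (K : Set (Fin n → ℝ)) : Set (Fin (n + 1) → ℝ) :=
  convexHull ℝ (insert (Fin.cons 1 0) ((fun x => Fin.cons 0 x) '' K))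

/-- The direct product of `K ⊆ ℝᵐ` and `L ⊆ ℝⁿ` in `ℝᵐ⁺ⁿ`. -/
def directProd {m n : ℕ} (K : Set (Fin m → ℝ)) (L : Set (Fin n → ℝ)) : Set (Fin (m + n) → ℝ) :=
  {z | (fun i => z (Fin.castAdd n i)) ∈ K ∧ (fun j => z (Fin.natAdd m j)) ∈ L}

/-- The free sum of `K ⊆ ℝᵐ` and `L ⊆ ℝⁿ` in `ℝᵐ⁺ⁿ`: convex hull of `K × {0}` and `{0} × L`. -/
def freeSum {m n : ℕ} (K : Set (Fin m → ℝ)) (L : Set (Fin n → ℝ)) : Set (Fin (m + n) → ℝ) :=
  convexHull ℝ ((fun x => Fin.append x 0) '' K ∪ (fun y => Fin.append 0 y) '' L)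

/-- `Cls n K`: the convex body `K ⊆ ℝⁿ` belongs to the smallest class of convex bodies, in all
dimensions `n ≥ 1`, which contains the bodies (a)-(i) and which is closed under (1) invertible
affine maps, (2) pyramids, (3) direct products and (4) free sums of bodies containing `0`. -/
inductive Cls : (n : ℕ) → Set (Fin n → ℝ) → Prop
  /-- (a) Bodies filling the part `t` of a body which is symmetric in all but `q` coordinates,
  `40 q log (n + 2) ≤ n` (`q = 0`: unconditional), `t = min (79/80, (1 - 10⁻²⁴)ⁿ)`. -/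
  | near {n : ℕ} {K U : Set (Fin n → ℝ)} {T : Finset (Fin n)} (hn : 1 ≤ n) (hU : SymIn T U)
      (hT : 40 * ((n : ℝ) - T.card) * Real.log (n + 2) ≤ n)
      (h : Fills (min (79 / 80) ((1 - 1 / 10 ^ 24) ^ n)) K U) : Cls n K
  /-- (b) Dimension `≥ 19`: bodies filling `299/300` of a body symmetric in all but one
  coordinates. -/
  | oneFree {n : ℕ} {K U : Set (Fin (n + 1) → ℝ)} (hn : 18 ≤ n)
      (hU : SymIn (Finset.univ.erase 0) U) (h : Fills (299 / 300) K U) : Cls (n + 1) K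
  /-- (c) Bodies filling `79/80` of the unit ball of a subspace of `L₁`. -/
  | l1 {n : ℕ} {K : Set (Fin n → ℝ)} {μ : Measure (Fin n → ℝ)} (hn : 2 ≤ n)
      (h1 : IsFiniteMeasure μ) (h2 : Integrable (fun v => ‖v‖) μ)
      (h3 : Bornology.IsBounded (l1Ball μ)) (h : Fills (79 / 80) K (l1Ball μ)) : Cls n K
  /-- (d) Bodies filling enough of an ellipsoid. -/
  | ball {n : ℕ} {K : Set (Fin n → ℝ)} {A : Matrix (Fin n) (Fin n) ℝ} {b : Fin n → ℝ}
      (hn : 1 ≤ n) (hK : IsConvexBody K) (hA : A.det ≠ 0) (hsub : K ⊆ cImg A b {x | x ⬝ᵥ x ≤ 1})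
      (hvol : ((n : ℝ) + 1) ^ (n + 1) * (n + 2) ^ n * A.det ^ 2 ≤
        n ^ n * n.factorial ^ 2 * cVol K ^ 2) : Cls n K
  /-- (e) Bodies filling enough of a parallelepiped. -/
  | cube {n : ℕ} {K : Set (Fin n → ℝ)} {A : Matrix (Fin n) (Fin n) ℝ} {b : Fin n → ℝ}
      (hn : 1 ≤ n) (hK : IsConvexBody K) (hA : A.det ≠ 0) (hsub : K ⊆ cImg A b (Icc 0 1))
      (hvol : ((n : ℝ) + 1) ^ (n + 1) * (n + 2) ^ n * A.det ^ 2 <
        12 ^ n * n.factorial ^ 2 * cVol K ^ 2) : Cls n K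
  /-- (f) Bodies nearly filling a simplex. -/
  | nearSimplex {n : ℕ} {K T : Set (Fin n → ℝ)} (hn : 1 ≤ n) (hT : IsSimplex T)
      (h : Fills (1 - 1 / ((n : ℝ) + 2) ^ (4 * n)) K T) : Cls n K
  /-- (g) The polytopes with at most `n + 2` vertices. -/
  | fewVertices {n : ℕ} {v : Fin (n + 2) → (Fin n → ℝ)} (hn : 1 ≤ n)
      (hK : IsConvexBody (convexHull ℝ (range v))) : Cls n (convexHull ℝ (range v))
  /-- (h) The bodies between `T ∩ E` and `T ∪ E`, where `T` is a simplex and `E` its moment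
  ellipsoid. -/
  | sandwiched {n : ℕ} {K T : Set (Fin n → ℝ)} (hn : 1 ≤ n) (hK : IsConvexBody K)
      (hT : IsSimplex T) (h1 : T ∩ momentEllipsoid T ⊆ K) (h2 : K ⊆ T ∪ momentEllipsoid T) :
      Cls n K
  /-- (i) Bodies at small Banach-Mazur distance from a simplex. -/
  | closeSimplex {n : ℕ} {K T : Set (Fin n → ℝ)} {z : Fin n → ℝ} {r : ℝ} (hn : 1 ≤ n)
      (hK : IsConvexBody K) (hr0 : 0 < r) (hr : r ≤ 1 + 1 / ((n : ℝ) + 2) ^ 5)
      (hT : IsSimplex T) (h1 : T ⊆ K) (h2 : K ⊆ cImg (r • 1) z T) : Cls n K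
  /-- (1) Closure under invertible affine maps. -/
  | affine {n : ℕ} {K : Set (Fin n → ℝ)} {A : Matrix (Fin n) (Fin n) ℝ} {b : Fin n → ℝ}
      (hA : A.det ≠ 0) (hK : Cls n K) : Cls n (cImg A b K)
  /-- (2) Closure under pyramids. -/
  | pyramid {n : ℕ} {K : Set (Fin n → ℝ)} (hK : Cls n K) : Cls (n + 1) (pyramid K)
  /-- (3) Closure under direct products. -/
  | prod {m n : ℕ} {K : Set (Fin m → ℝ)} {L : Set (Fin n → ℝ)} (hK : Cls m K) (hL : Cls n L) :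
      Cls (m + n) (directProd K L)
  /-- (4) Closure under free sums of bodies containing the origin (an interior or a boundary
  point). -/
  | freeSum {m n : ℕ} {K : Set (Fin m → ℝ)} {L : Set (Fin n → ℝ)} (hK0 : (0 : Fin m → ℝ) ∈ K)
      (hL0 : (0 : Fin n → ℝ) ∈ L) (hK : Cls m K) (hL : Cls n L) : Cls (m + n) (freeSum K L)

end Vale.Agent.P254
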