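import Mathlib

/-!
Algebra for the polytopes with `n + 2` vertices: the determinant of `1 + β βᵀ - c cᵀ`.
-/

open Matrix Finset

namespace Vale.Agent.P254.FV

section det
variable {ι : Type*} [Fintype ι] [DecidableEq ι]

/-- a rank two perturbation of the identity -/
theorem det_one_add_sub (u c : ι → ℝ) :
    (1 + vecMulVec u u - vecMulVec c c : Matrix ι ι ℝ).det =
      (1 + u ⬝ᵥ u) * (1 - c ⬝ᵥ c) + (u ⬝ᵥ c) ^ 2 := by
  have h1 : (1 + vecMulVec u u - vecMulVec c c : Matrix ι ι ℝ) =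
      1 + (Matrix.of fun (i : ι) (k : Fin 2) => if k = 0 then u i else c i) *
        (Matrix.of fun (k : Fin 2) (j : ι) => if k = 0 then u j else -c j) := by
    ext i j
    simp only [Matrix.sub_apply, Matrix.add_apply, vecMulVec_apply, Matrix.mul_apply,
      Matrix.of_apply, Fin.sum_univ_two]
    simp
    ring
  rw [h1, det_one_add_mul_comm, det_fin_two]
  simp only [Matrix.add_apply, Matrix.mul_apply, Matrix.of_apply, dotProduct, Matrix.one_apply]
  simp only [Fin.isValue, reduceIte, one_ne_zero, zero_ne_one, zero_add]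
  have e1 : ∑ j, u j * c j = ∑ j, c j * u j := Finset.sum_congr rfl fun j _ => mul_comm _ _
  have e2 : ∑ j, -c j * u j = -∑ j, c j * u j := by
    rw [← Finset.sum_neg_distrib]
    exact Finset.sum_congr rfl fun j _ => by ring
  have e3 : ∑ j, -c j * c j = -∑ j, c j * c j := by
    rw [← Finset.sum_neg_distrib]
    exact Finset.sum_congr rfl fun j _ => by ring
  rw [e1, e2, e3]
  ring

/-- the matrix `1 + β βᵀ - c cᵀ` -/
noncomputable def Ym (β c : ι → ℝ) : Matrix ι ι ℝ := 1 + vecMulVec β β - vecMulVec c c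

theorem Ym_mulVec_one {β c : ι → ℝ} (hβ : ∑ i, β i = 1) (hc : ∑ i, c i = 1) :
    Ym β c *ᵥ 1 = 1 + β - c := by
  ext i
  rw [Ym, sub_mulVec, add_mulVec, one_mulVec]
  simp only [Pi.sub_apply, Pi.add_apply, mulVec, dotProduct, vecMulVec_apply, Pi.one_apply,
    mul_one]
  rw [← Finset.mul_sum, ← Finset.mul_sum, hβ, hc, mul_one, mul_one]

/-- the second moments -/
theorem det_Wm {β c : ι → ℝ} (hβ : ∑ i, β i = 1) (hc : ∑ i, c i = 1) :
    (Ym β c + vecMulVec (1 + β - c) (1 + β - c)).det =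
      ((Fintype.card ι : ℝ) + 1) * (Ym β c).det := by
  have hsym : (1 : ι → ℝ) ᵥ* Ym β c = 1 + β - c := by
    ext i
    rw [Ym, vecMul_sub, vecMul_add, vecMul_one]
    simp only [Pi.sub_apply, Pi.add_apply, vecMul, dotProduct, vecMulVec_apply, Pi.one_apply,
      one_mul]
    rw [← Finset.sum_mul, ← Finset.sum_mul, hβ, hc, one_mul, one_mul]
  have h1 : Ym β c + vecMulVec (1 + β - c) (1 + β - c) =
      Ym β c * (1 + vecMulVec 1 (1 + β - c)) := by
    rw [Matrix.mul_add, Matrix.mul_one, mul_vecMulVec, Ym_mulVec_one hβ hc]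
  rw [h1, det_mul, mul_comm]
  congr 1
  have h2 : (1 + vecMulVec 1 (1 + β - c) : Matrix ι ι ℝ) =
      1 + replicateCol Unit (1 : ι → ℝ) * replicateRow Unit (1 + β - c) := by
    rw [vecMulVec_eq Unit]
  rw [h2, det_one_add_replicateCol_mul_replicateRow]
  simp only [dotProduct, Pi.add_apply, Pi.sub_apply, Pi.one_apply, mul_one]
  rw [Finset.sum_sub_distrib, Finset.sum_add_distrib, hβ, hc]
  simp
  ring

end det

section ineq
variable {ι : Type*} [Fintype ι]

theorem sum_sq_le_sq_sum {f : ι → ℝ} (hf : ∀ i, 0 ≤ f i) : ∑ i, f i ^ 2 ≤ (∑ i, f i) ^ 2 := by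
  rw [sq, Finset.sum_mul]
  refine Finset.sum_le_sum fun i _ => ?_
  rw [sq]
  exact mul_le_mul_of_nonneg_left (Finset.single_le_sum (fun j _ => hf j) (Finset.mem_univ i))
    (hf i)

theorem sum_sq_eq_sq_sum {f : ι → ℝ} (hf : ∀ i, 0 ≤ f i) (h : ∑ i, f i ^ 2 = (∑ i, f i) ^ 2)
    {i j : ι} (hi : 0 < f i) (hj : 0 < f j) : i = j := by
  classical
  by_contra hij
  rw [sq, Finset.sum_mul] at h
  have h1 : ∀ k ∈ (Finset.univ : Finset ι), f k ^ 2 ≤ f k * ∑ l, f l := by
    intro k _
    rw [sq]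
    exact mul_le_mul_of_nonneg_left
      (Finset.single_le_sum (fun j _ => hf j) (Finset.mem_univ k)) (hf k)
  have h2 := (Finset.sum_eq_sum_iff_of_le h1).1 h i (Finset.mem_univ i)
  rw [sq] at h2
  have h3 := mul_left_cancel₀ hi.ne' h2
  have h4 : f i + f j ≤ ∑ l, f l := by
    rw [← Finset.sum_pair hij]
    exact Finset.sum_le_sum_of_subset_of_nonneg (Finset.subset_univ _) fun k _ _ => hf k
  linarith

end ineq

section main
variable {ι : Type*} [Fintype ι] [DecidableEq ι]

/-- `(Σ_+ β)²` times the ratio of the isotropic constants (to the power `2n`) -/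
theorem det_Y_eq {β : ι → ℝ} (hβ : ∑ i, β i = 1) {φ : ℝ} (hφ : φ = ∑ i, max (β i) 0) :
    (Ym β (fun i => max (β i) 0 / φ)).det =
      φ ^ 2 - (φ ^ 2 - (1 + ∑ i, max (-β i) 0 ^ 2)) * (φ ^ 2 - ∑ i, max (β i) 0 ^ 2) / φ ^ 2 := by
  have hφ1 : 1 ≤ φ := by
    rw [hφ, ← hβ]
    exact Finset.sum_le_sum fun i _ => le_max_left _ _
  have hφ0 : φ ≠ 0 := by positivity
  rw [Ym, det_one_add_sub]
  have e1 : β ⬝ᵥ β = ∑ i, max (-β i) 0 ^ 2 + ∑ i, max (β i) 0 ^ 2 := by
    rw [dotProduct, ← Finset.sum_add_distrib]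
    refine Finset.sum_congr rfl fun i _ => ?_
    rcases le_total 0 (β i) with h | h
    · rw [max_eq_left h, max_eq_right (by linarith)]
      ring
    · rw [max_eq_right h, max_eq_left (by linarith)]
      ring
  have e2 : (fun i => max (β i) 0 / φ) ⬝ᵥ (fun i => max (β i) 0 / φ) =
      (∑ i, max (β i) 0 ^ 2) / φ ^ 2 := by
    rw [dotProduct, Finset.sum_div]
    refine Finset.sum_congr rfl fun i _ => ?_
    rw [div_mul_div_comm, sq, sq]
  have e3 : β ⬝ᵥ (fun i => max (β i) 0 / φ) = (∑ i, max (β i) 0 ^ 2) / φ := by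
    rw [dotProduct, Finset.sum_div]
    refine Finset.sum_congr rfl fun i _ => ?_
    rcases le_total 0 (β i) with h | h
    · rw [max_eq_left h]
      ring
    · rw [max_eq_right h]
      ring
  rw [e1, e2, e3]
  field_simp
  ring

omit [DecidableEq ι] in
theorem one_add_le {β : ι → ℝ} (hβ : ∑ i, β i = 1) {φ : ℝ} (hφ : φ = ∑ i, max (β i) 0) :
    1 + ∑ i, max (-β i) 0 ^ 2 ≤ φ ^ 2 := by
  have h1 : φ = 1 + ∑ i, max (-β i) 0 := by
    rw [hφ, ← hβ, ← Finset.sum_add_distrib]
    refine Finset.sum_congr rfl fun i _ => ?_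
    rcases le_total 0 (β i) with h | h
    · rw [max_eq_left h, max_eq_right (by linarith), add_zero]
    · rw [max_eq_right h, max_eq_left (by linarith)]
      ring
  have h2 : ∑ i, max (-β i) 0 ^ 2 ≤ (∑ i, max (-β i) 0) ^ 2 :=
    sum_sq_le_sq_sum fun i => le_max_right _ _
  have h3 : 0 ≤ ∑ i, max (-β i) 0 := Finset.sum_nonneg fun i _ => le_max_right _ _
  rw [h1]
  nlinarith

omit [DecidableEq ι] in
theorem sum_sq_le {β : ι → ℝ} {φ : ℝ} (hφ : φ = ∑ i, max (β i) 0) :
    ∑ i, max (β i) 0 ^ 2 ≤ φ ^ 2 := by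
  rw [hφ]
  exact sum_sq_le_sq_sum fun i => le_max_right _ _

/-- **The inequality.** -/
theorem det_Y_le {β : ι → ℝ} (hβ : ∑ i, β i = 1) {φ : ℝ} (hφ : φ = ∑ i, max (β i) 0) :
    (Ym β (fun i => max (β i) 0 / φ)).det ≤ φ ^ 2 := by
  rw [det_Y_eq hβ hφ]
  have h1 := one_add_le hβ hφ
  have h2 := sum_sq_le hφ
  have h3 : 0 ≤ (φ ^ 2 - (1 + ∑ i, max (-β i) 0 ^ 2)) * (φ ^ 2 - ∑ i, max (β i) 0 ^ 2) / φ ^ 2 :=
    div_nonneg (mul_nonneg (by linarith) (by linarith)) (sq_nonneg φ)
  linarith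

/-- **The equality case.** -/
theorem det_Y_eq_iff {β : ι → ℝ} (hβ : ∑ i, β i = 1) {φ : ℝ} (hφ : φ = ∑ i, max (β i) 0) :
    (Ym β (fun i => max (β i) 0 / φ)).det = φ ^ 2 ↔
      (∀ i, 0 ≤ β i) ∨ ∀ i j, 0 < β i → 0 < β j → i = j := by
  have hφ1 : 1 ≤ φ := by
    rw [hφ, ← hβ]
    exact Finset.sum_le_sum fun i _ => le_max_left _ _
  have hφ0 : φ ≠ 0 := by positivity
  have hneg : φ = 1 + ∑ i, max (-β i) 0 := by
    rw [hφ, ← hβ, ← Finset.sum_add_distrib]
    refine Finset.sum_congr rfl fun i _ => ?_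
    rcases le_total 0 (β i) with h | h
    · rw [max_eq_left h, max_eq_right (by linarith), add_zero]
    · rw [max_eq_right h, max_eq_left (by linarith)]
      ring
  rw [det_Y_eq hβ hφ]
  constructor
  · intro h
    have h1 : (φ ^ 2 - (1 + ∑ i, max (-β i) 0 ^ 2)) * (φ ^ 2 - ∑ i, max (β i) 0 ^ 2) / φ ^ 2 = 0 := by
      linarith
    rw [div_eq_zero_iff] at h1
    rcases h1 with h1 | h1
    · rcases mul_eq_zero.1 h1 with h2 | h2
      · left
        have h3 : ∑ i, max (-β i) 0 ^ 2 ≤ (∑ i, max (-β i) 0) ^ 2 :=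
          sum_sq_le_sq_sum fun i => le_max_right _ _
        have h4 : 0 ≤ ∑ i, max (-β i) 0 := Finset.sum_nonneg fun i _ => le_max_right _ _
        have h5 : ∑ i, max (-β i) 0 = 0 := by
          rw [hneg] at h2
          nlinarith
        intro i
        have h6 := (Finset.sum_eq_zero_iff_of_nonneg fun i _ => le_max_right (-β i) 0).1 h5 i
          (Finset.mem_univ i)
        have h7 := le_max_left (-β i) 0
        linarith
      · right
        intro i j hi hj
        refine sum_sq_eq_sq_sum (f := fun i => max (β i) 0) (fun i => le_max_right _ _) ?_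
          (lt_max_of_lt_left hi) (lt_max_of_lt_left hj)
        rw [← hφ]
        linarith
    · exact absurd h1 (by positivity)
  · intro h
    have h1 : (φ ^ 2 - (1 + ∑ i, max (-β i) 0 ^ 2)) * (φ ^ 2 - ∑ i, max (β i) 0 ^ 2) = 0 := by
      rcases h with h | h
      · have h2 : ∀ i, max (-β i) 0 = 0 := fun i => max_eq_right (by linarith [h i])
        have h3 : φ = 1 := by
          rw [hneg, Finset.sum_eq_zero fun i _ => h2 i, add_zero]
        rw [h3, Finset.sum_eq_zero fun i _ => by rw [h2 i]; norm_num]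
        ring
      · have h2 : ∃ i, 0 < β i := by
          by_contra hc
          push Not at hc
          have := Finset.sum_nonpos fun i (_ : i ∈ Finset.univ) => hc i
          linarith
        obtain ⟨i, hi⟩ := h2
        have h3 : ∀ j, j ≠ i → max (β j) 0 = 0 := by
          intro j hj
          refine max_eq_right ?_
          by_contra hc
          push Not at hc
          exact hj (h j i hc hi)
        have h4 : φ = max (β i) 0 := by
          rw [hφ]
          exact Finset.sum_eq_single i (fun j _ hj => h3 j hj) fun hc => absurd (Finset.mem_univ i) hc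
        have h5 : ∑ i, max (β i) 0 ^ 2 = max (β i) 0 ^ 2 :=
          Finset.sum_eq_single i (fun j _ hj => by rw [h3 j hj]; norm_num)
            fun hc => absurd (Finset.mem_univ i) hc
        rw [h5, ← h4]
        ring
    rw [h1, zero_div, sub_zero]

end main

end Vale.Agent.P254.FV
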