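import Vale.Agent.P254.FV.Good
import Vale.Agent.P254.Sandwich
import Vale.Agent.P254.Quant3
import Vale.Agent.P254.EX.Alm
import Vale.Agent.P254.L1.F
import Vale.Agent.P254.Ell.Main
import Vale.Agent.P254.FV1.Final
import Vale.Agent.P254.Par.Main

/-!
The strong isotropic constant conjecture for the class `Cls`.
-/

open MeasureTheory Set Matrix

namespace Vale.Agent.P254.FV

variable {m n : ℕ}

theorem of_sandwich (hn : 1 ≤ n) {K T S : Set (Fin n → ℝ)} (hK : IsConvexBody K)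
    (hS : IsSimplex S) (hT : IsSimplex T) (h1 : T ∩ momentEllipsoid T ⊆ K)
    (h2 : K ⊆ T ∪ momentEllipsoid T) :
    isoConst K ≤ isoConst S ∧ (isoConst K = isoConst S ↔ IsSimplex K) := by
  obtain ⟨r1, r2⟩ := sandwich hn hK hT h1 h2
  have e : isoConst S = isoConst T := by rw [isoConst_simplex hS, isoConst_simplex hT]
  rw [e]
  refine ⟨r1, fun h3 => ?_, fun h3 => ?_⟩
  · rw [r2.mp h3]; exact hT
  · rw [isoConst_simplex h3, isoConst_simplex hT]

theorem of_close (hn : 1 ≤ n) {K S : Set (Fin n → ℝ)} (hK : IsConvexBody K) (hS : IsSimplex S)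
    (hclose : (∃ T : Set (Fin n → ℝ), IsSimplex T ∧ K ⊆ T ∧
        (1 - 1 / ((n : ℝ) + 2) ^ (4 * n)) * (volume T).toReal ≤ (volume K).toReal) ∨
      (∃ T : Set (Fin n → ℝ), ∃ z : Fin n → ℝ, ∃ r : ℝ, 0 < r ∧ r ≤ 1 + 1 / ((n : ℝ) + 2) ^ 5 ∧
        IsSimplex T ∧ T ⊆ K ∧ K ⊆ (fun x => z + r • x) '' T)) :
    isoConst K ≤ isoConst S ∧ (isoConst K = isoConst S ↔ IsSimplex K) := by
  obtain ⟨⟨T₀, h1, h2, h3, h4⟩, h5⟩ := main_q hn hK hS hclose
  refine ⟨?_, h5⟩
  have hS0 : 0 ≤ isoConst S := by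
    rw [isoConst_simplex hS]
    exact (isoConst_stdS_pos (by omega)).le
  refine h4.trans ?_
  have hT₀ : 0 < (volume T₀).toReal := by
    obtain ⟨A0, b0, hA0, rfl⟩ := h1.exists_aff
    rw [volume_aff_image hA0 b0 isCompact_stdS.measurableSet]
    exact mul_pos (abs_pos.mpr hA0) volume_stdS_pos
  have hT₀fin : volume T₀ ≠ ⊤ := by
    intro h
    rw [h] at hT₀
    simp at hT₀
  have hle : (volume K).toReal / (volume T₀).toReal ≤ 1 :=
    (div_le_one hT₀).mpr (ENNReal.toReal_mono hT₀fin (measure_mono h2))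
  have hn0 : (0 : ℝ) < n := by exact_mod_cast hn
  have : 0 ≤ (1 - (volume K).toReal / (volume T₀).toReal) / (2 * (n : ℝ) ^ 2) :=
    div_nonneg (by linarith) (by positivity)
  nlinarith

theorem ball_conj (hn : 1 ≤ n) {K S : Set (Fin n → ℝ)} (hK : IsConvexBody K) (hS : IsSimplex S)
    {A : Matrix (Fin n) (Fin n) ℝ} {b : Fin n → ℝ} (hA : A.det ≠ 0)
    (hsub : K ⊆ cImg A b {x | x ⬝ᵥ x ≤ 1})
    (hvol : ((n : ℝ) + 1) ^ (n + 1) * (n + 2) ^ n * A.det ^ 2 ≤
      n ^ n * n.factorial ^ 2 * cVol K ^ 2) :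
    isoConst K ≤ isoConst S ∧ (isoConst K = isoConst S ↔ IsSimplex K) := by
  have hu : IsUnit A.det := isUnit_iff_ne_zero.2 hA
  refine ell_conj hn hK hS (Q := (A⁻¹)ᵀ * A⁻¹) ?_ b ?_ ?_
  · have h1 := Matrix.PosDef.conjTranspose_mul_self (A⁻¹) (by
      apply Matrix.mulVec_injective_iff_isUnit.mpr
      rw [Matrix.isUnit_iff_isUnit_det, det_nonsing_inv]
      simpa using hA)
    rwa [conjTranspose_eq_transpose_of_trivial] at h1
  · intro x hx
    obtain ⟨y, hy, rfl⟩ := hsub hx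
    simp only [add_sub_cancel_right]
    have e1 : ((A⁻¹)ᵀ * A⁻¹) *ᵥ (A *ᵥ y) = (A⁻¹)ᵀ *ᵥ y := by
      rw [mulVec_mulVec, Matrix.mul_assoc, nonsing_inv_mul _ hu, Matrix.mul_one]
    rw [e1, dotProduct_mulVec, vecMul_transpose, mulVec_mulVec, nonsing_inv_mul _ hu, one_mulVec]
    exact hy
  · rw [det_mul, det_transpose, det_nonsing_inv, Ring.inverse_eq_inv']
    have e : (volume K).toReal = cVol K := rfl
    rw [e]
    have h2 : 0 < A.det ^ 2 := by positivity
    have e2 : cVol K ^ 2 * (A.det⁻¹ * A.det⁻¹) * ((n : ℝ) ^ n * (n.factorial : ℝ) ^ 2) =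
        (n : ℝ) ^ n * (n.factorial : ℝ) ^ 2 * cVol K ^ 2 / A.det ^ 2 := by
      field_simp
    rw [e2, le_div_iff₀ h2]
    exact hvol

theorem cube_conj (hn : 1 ≤ n) {K S : Set (Fin n → ℝ)} (hK : IsConvexBody K) (hS : IsSimplex S)
    {A : Matrix (Fin n) (Fin n) ℝ} {b : Fin n → ℝ} (hA : A.det ≠ 0)
    (hsub : K ⊆ cImg A b (Icc 0 1))
    (hvol : ((n : ℝ) + 1) ^ (n + 1) * (n + 2) ^ n * A.det ^ 2 <
      12 ^ n * n.factorial ^ 2 * cVol K ^ 2) :
    isoConst K ≤ isoConst S ∧ (isoConst K = isoConst S ↔ IsSimplex K) := by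
  refine lt_conj hS (Par.par_lt hn hK hS hA b hsub ?_)
  rw [volume_aff_image hA b measurableSet_Icc, Real.volume_Icc_pi_toReal zero_le_one]
  simpa [sq_abs, cVol] using hvol

theorem cImg_smul_one (r : ℝ) (z : Fin n → ℝ) (T : Set (Fin n → ℝ)) :
    cImg (r • 1) z T = (fun x => z + r • x) '' T := by
  unfold cImg
  congr 1
  ext x i
  simp [Matrix.smul_mulVec, add_comm]

theorem Cls.good {K : Set (Fin n → ℝ)} (h : Cls n K) : Good K := by
  induction h with
  | near hn hU hT h =>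
    obtain ⟨hK, A, b, hA, hsub, hvol⟩ := h
    exact good_of hn hK fun S hS =>
      let r := EX.near_sym hn hK hS ⟨A, b, _, _, hA, hU.1, hU.2, hT, Or.inl ⟨hsub, hvol⟩⟩
      ⟨r.1, r.2.1⟩
  | oneFree hn hU h =>
    obtain ⟨hK, A, b, hA, hsub, hvol⟩ := h
    refine good_of (by omega) hK fun S hS => lt_conj hS ?_
    refine FV1.sym1_near hn hK hS hU.1 ?_ hA hsub hvol
    intro x hx y h0 hk
    refine hU.2 x hx y (fun i hi => ?_) (fun i hi => ?_)
    · obtain ⟨j, rfl⟩ := Fin.exists_succ_eq.2 (Finset.ne_of_mem_erase hi)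
      exact hk j
    · have : i = 0 := by simpa using hi
      rw [this]
      exact h0
  | l1 hn h1 h2 h3 h =>
    obtain ⟨hK, A, b, hA, hsub, hvol⟩ := h
    exact good_of (by omega) hK fun S hS =>
      lt_conj hS (L1.l1_near hn hK hS h2 h3 hA hsub hvol)
  | ball hn hK hA hsub hvol =>
    exact good_of hn hK fun S hS => ball_conj hn hK hS hA hsub hvol
  | cube hn hK hA hsub hvol =>
    exact good_of hn hK fun S hS => cube_conj hn hK hS hA hsub hvol
  | fewVertices hn hK =>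
    exact good_of hn hK fun S hS =>
      let r := few_vertices hn _ hK.2.2 hS
      ⟨r.1, r.2.1⟩
  | sandwiched hn hK hT h1 h2 =>
    exact good_of hn hK fun S hS =>
      of_sandwich hn hK hS hT h1 h2
  | nearSimplex hn hT h =>
    obtain ⟨hK, A, b, hA, hsub, hvol⟩ := h
    exact good_of hn hK fun S hS =>
      of_close hn hK hS (Or.inl ⟨_, isSimplex_aff hT hA b, hsub, hvol⟩)
  | closeSimplex hn hK hr0 hr hT h1 h2 =>
    rw [cImg_smul_one] at h2
    exact good_of hn hK fun S hS => of_close hn hK hS (Or.inr ⟨_, _, _, hr0, hr, hT, h1, h2⟩)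
  | affine hA _ ih => exact ih.aff hA _
  | pyramid _ ih => exact ih.pyramid
  | prod _ _ ih1 ih2 => exact ih1.prod ih2
  | freeSum hK0 hL0 _ _ ih1 ih2 => exact ih1.freeSum ih2 hK0 hL0

end Vale.Agent.P254.FV
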