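import Vale.Agent.P254.FV.Minor

/-!
Decomposition of the hull of `n + 2` points into simplices, and its moments.
-/

open MeasureTheory Set Matrix

namespace Vale.Agent.P254.FV

variable {n : ℕ}

/-- the hull of all points but `v k` -/
def face (v : Fin (n + 2) → Fin n → ℝ) (k : Fin (n + 2)) : Set (Fin n → ℝ) :=
  convexHull ℝ (range fun j : Fin (n + 1) => v (k.succAbove j))

theorem mem_face {v : Fin (n + 2) → Fin n → ℝ} {k : Fin (n + 2)} {x : Fin n → ℝ} :
    x ∈ face v k ↔ ∃ w : Fin (n + 2) → ℝ, (∀ i, 0 ≤ w i) ∧ w k = 0 ∧ ∑ i, w i = 1 ∧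
      ∀ a, ∑ i, w i * v i a = x a := by
  rw [face, mem_hull]
  constructor
  · rintro ⟨w, h1, h2, h3⟩
    refine ⟨k.insertNth (0 : ℝ) w, fun i => ?_, by simp, ?_, fun a => ?_⟩
    · rcases eq_or_ne i k with rfl | hi
      · simp
      · obtain ⟨z, rfl⟩ := Fin.exists_succAbove_eq hi
        simpa using h1 z
    · rw [Fin.sum_univ_succAbove _ k]
      simpa using h2
    · rw [Fin.sum_univ_succAbove _ k]
      simpa using h3 a
  · rintro ⟨w, h1, h2, h3, h4⟩
    refine ⟨fun j => w (k.succAbove j), fun i => h1 _, ?_, fun a => ?_⟩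
    · rw [Fin.sum_univ_succAbove _ k, h2, zero_add] at h3
      exact h3
    · have := h4 a
      rw [Fin.sum_univ_succAbove _ k, h2, zero_mul, zero_add] at this
      exact this

theorem face_subset (v : Fin (n + 2) → Fin n → ℝ) (k : Fin (n + 2)) :
    face v k ⊆ convexHull ℝ (range v) := by
  refine convexHull_mono ?_
  rintro _ ⟨j, rfl⟩
  exact mem_range_self _

theorem isCompact_face (v : Fin (n + 2) → Fin n → ℝ) (k : Fin (n + 2)) : IsCompact (face v k) :=
  (Set.finite_range _).isCompact_convexHull ℝ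

theorem hull_eq_iUnion' {v : Fin (n + 2) → Fin n → ℝ} {c : Fin (n + 2) → ℝ} (hc : ∑ k, c k = 0)
    (hcv : ∀ a, ∑ k, c k * v k a = 0) (h : ∃ k, 0 < c k) :
    convexHull ℝ (range v) = ⋃ k : {k // 0 < c k}, face v k := by
  apply Subset.antisymm
  · intro x hx
    obtain ⟨w, h1, h2, h3⟩ := mem_hull.1 hx
    obtain ⟨k₁, hk₁⟩ := h
    obtain ⟨k, hk, hmin⟩ := Finset.exists_min_image (Finset.univ.filter fun k => 0 < c k)
      (fun k => w k / c k) ⟨k₁, by simpa using hk₁⟩
    have hk : 0 < c k := by simpa using hk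
    refine mem_iUnion.2 ⟨⟨k, hk⟩, mem_face.2 ⟨fun i => w i - w k / c k * c i,
      fun i => ?_, ?_, ?_, fun a => ?_⟩⟩
    · have ht : 0 ≤ w k / c k := div_nonneg (h1 k) hk.le
      rcases lt_or_ge 0 (c i) with hi | hi
      · have := hmin i (by simpa using hi)
        rw [le_div_iff₀ hi] at this
        linarith
      · have := mul_nonneg ht (neg_nonneg.2 hi)
        have := h1 i
        linarith
    · simp only
      rw [div_mul_cancel₀ _ hk.ne', sub_self]
    · rw [Finset.sum_sub_distrib, ← Finset.mul_sum, hc, mul_zero, sub_zero, h2]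
    · have e : ∀ i, (w i - w k / c k * c i) * v i a =
          w i * v i a - w k / c k * (c i * v i a) := fun i => by ring
      simp_rw [e]
      rw [Finset.sum_sub_distrib, ← Finset.mul_sum, hcv, mul_zero, sub_zero, h3]
  · exact iUnion_subset fun k => face_subset v k

theorem hull_eq_iUnion {v : Fin (n + 2) → Fin n → ℝ} (h : ∃ k, 0 < minor v k) :
    convexHull ℝ (range v) = ⋃ k : {k // 0 < minor v k}, face v k :=
  hull_eq_iUnion' (sum_minor v) (sum_minor_mul v) h

theorem face_inter_null (hn : 1 ≤ n) {v : Fin (n + 2) → Fin n → ℝ} {j k : Fin (n + 2)}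
    (hjk : j ≠ k) (hj : 0 < minor v j) (hk : 0 < minor v k) :
    volume (face v j ∩ face v k) = 0 := by
  classical
  obtain ⟨m, rfl⟩ : ∃ m, n = m + 1 := ⟨n - 1, by omega⟩
  set s : Finset (Fin (m + 1 + 2)) := Finset.univ \ {j, k} with hs
  have hcard : s.card = m + 1 := by
    rw [hs, Finset.card_univ_sdiff, Finset.card_pair hjk, Fintype.card_fin]
    omega
  have hsub : face v j ∩ face v k ⊆ affineSpan ℝ (s.image v : Set (Fin (m + 1) → ℝ)) := by
    rintro x ⟨hxj, hxk⟩
    obtain ⟨l, hl1, hl2, hl3, hl4⟩ := mem_face.1 hxj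
    obtain ⟨u, hu1, hu2, hu3, hu4⟩ := mem_face.1 hxk
    have hker := ker_minor (c := fun i => l i - u i) hk.ne'
      (by rw [Finset.sum_sub_distrib, hl3, hu3, sub_self])
      (by
        intro a
        simp_rw [sub_mul]
        rw [Finset.sum_sub_distrib, hl4, hu4, sub_self])
    simp only [hu2, sub_zero] at hker
    have h1 := hker j
    rw [hl2] at h1
    have h2 : 0 ≤ l k / minor v k * minor v j := mul_nonneg (div_nonneg (hl1 k) hk.le) hj.le
    have h3 : l k / minor v k * minor v j = 0 := by
      have := hu1 j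
      linarith
    have h4 : l k = 0 := by
      rcases mul_eq_zero.1 h3 with h | h
      · rcases div_eq_zero_iff.1 h with h | h
        · exact h
        · exact absurd h hk.ne'
      · exact absurd h hj.ne'
    have hl0 : ∀ i, i ∉ s → l i = 0 := by
      intro i hi
      have : i = j ∨ i = k := or_iff_not_imp_left.2 (by simpa [hs] using hi)
      rcases this with rfl | rfl
      · exact hl2
      · exact h4
    have hx : x ∈ convexHull ℝ (s.image v : Set (Fin (m + 1) → ℝ)) := by
      have h := (convex_convexHull ℝ (s.image v : Set (Fin (m + 1) → ℝ))).sum_mem (t := s) (w := l)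
        (z := v) (fun i _ => hl1 i)
        (by
          rw [← hl3]
          exact Finset.sum_subset (Finset.subset_univ _) fun i _ hi => hl0 i hi)
        (fun i hi => subset_convexHull ℝ _ (by
          rw [Finset.coe_image]
          exact mem_image_of_mem v hi))
      have e : ∑ i ∈ s, l i • v i = x := by
        rw [Finset.sum_subset (Finset.subset_univ _) fun i _ hi => by rw [hl0 i hi, zero_smul]]
        ext a
        rw [Finset.sum_apply, ← hl4 a]
        rfl
      rwa [e] at h
    exact convexHull_subset_affineSpan _ hx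
  refine measure_mono_null hsub (Measure.addHaar_affineSubspace volume _ ?_)
  intro htop
  have h1 := AffineSubspace.vectorSpan_eq_top_of_affineSpan_eq_top ℝ (Fin (m + 1) → ℝ)
    (Fin (m + 1) → ℝ) htop
  have h2 := finrank_vectorSpan_image_finset_le ℝ v s hcard
  rw [h1, finrank_top, Module.finrank_fin_fun] at h2
  omega

theorem integral_hull (hn : 1 ≤ n) {v : Fin (n + 2) → Fin n → ℝ} (h : ∃ k, 0 < minor v k)
    {f : (Fin n → ℝ) → ℝ} (hf : Continuous f) {g : Fin (n + 2) → ℝ}
    (hg : ∀ k, 0 < minor v k → ∫ x in face v k, f x = minor v k * g k) :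
    ∫ x in convexHull ℝ (range v), f x = ∑ k, max (minor v k) 0 * g k := by
  have h1 : IntegrableOn f (⋃ k : {k // 0 < minor v k}, face v k) := by
    rw [← hull_eq_iUnion h]
    exact intOn ((Set.finite_range _).isCompact_convexHull ℝ) hf
  rw [hull_eq_iUnion h, integral_iUnion_ae (s := fun k : {k // 0 < minor v k} => face v k)
    (fun k => (isCompact_face v k).measurableSet.nullMeasurableSet)
    (fun j k hjk => face_inter_null hn (fun hh => hjk (Subtype.ext hh)) j.2 k.2) h1, tsum_fintype]
  rw [← Finset.sum_filter_add_sum_filter_not Finset.univ (fun k => 0 < minor v k)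
    (fun k => max (minor v k) 0 * g k)]
  have h2 : ∑ k ∈ Finset.univ.filter (fun k => ¬ 0 < minor v k), max (minor v k) 0 * g k = 0 := by
    refine Finset.sum_eq_zero fun k hk => ?_
    have : ¬ 0 < minor v k := by simpa using hk
    rw [max_eq_right (not_lt.1 this), zero_mul]
  rw [h2, add_zero]
  rw [Finset.sum_subtype (Finset.univ.filter fun k => 0 < minor v k) (p := fun k => 0 < minor v k)
    (by simp)]
  refine Finset.sum_congr rfl fun k _ => ?_
  rw [hg k.1 k.2, max_eq_left k.2.le]

end Vale.Agent.P254.FV
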