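import Vale.Agent.P254.FV.Minor

/-!
If the hull of `n + 2` points has nonempty interior, then some maximal minor is nonzero.
-/

open Set Matrix

namespace Vale.Agent.P254.FV

variable {n : ℕ}

theorem exists_minor_ne {v : Fin (n + 2) → Fin n → ℝ}
    (h : (interior (convexHull ℝ (range v))).Nonempty) : ∃ k, minor v k ≠ 0 := by
  -- the rows of the homogeneous coordinate matrix are linearly independent
  have hli : LinearIndependent ℝ (fun (i : Fin (n + 1)) (k : Fin (n + 2)) => hom (v k) i) := by
    rw [Fintype.linearIndependent_iff]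
    intro y hy
    have hy1 : ∀ x ∈ convexHull ℝ (range v), y 0 + ∑ a : Fin n, y a.succ * x a = 0 := by
      intro x hx
      obtain ⟨w, h1, h2, h3⟩ := mem_hull.1 hx
      have e : y 0 + ∑ a : Fin n, y a.succ * x a =
          ∑ k, w k * (y 0 + ∑ a : Fin n, y a.succ * v k a) := by
        simp_rw [mul_add]
        rw [Finset.sum_add_distrib, ← Finset.sum_mul, h2, one_mul]
        congr 1
        simp_rw [Finset.mul_sum]
        rw [Finset.sum_comm]
        refine Finset.sum_congr rfl fun a _ => ?_
        rw [← h3 a, Finset.mul_sum]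
        exact Finset.sum_congr rfl fun k _ => by ring
      rw [e]
      refine Finset.sum_eq_zero fun k _ => ?_
      have h4 := congrFun hy k
      rw [Finset.sum_apply, Fin.sum_univ_succ] at h4
      simp only [Pi.smul_apply, smul_eq_mul, hom, Fin.cons_zero, Fin.cons_succ, mul_one,
        Pi.zero_apply] at h4
      rw [h4, mul_zero]
    obtain ⟨x, hx⟩ := h
    obtain ⟨ε, hε, hball⟩ := Metric.isOpen_iff.1 isOpen_interior x hx
    have hx0 := hy1 x (interior_subset hx)
    have hya : ∀ a : Fin n, y a.succ = 0 := by
      intro a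
      have hx' : x + Pi.single a (ε / 2) ∈ convexHull ℝ (range v) := by
        refine interior_subset (hball ?_)
        rw [Metric.mem_ball, dist_eq_norm, add_sub_cancel_left, Pi.norm_single, Real.norm_eq_abs,
          abs_of_pos (by linarith)]
        linarith
      have h5 := hy1 _ hx'
      simp only [Pi.add_apply, mul_add] at h5
      rw [Finset.sum_add_distrib] at h5
      have h6 : ∑ b : Fin n, y b.succ * (Pi.single a (ε / 2) : Fin n → ℝ) b = y a.succ * (ε / 2) := by
        simp [Pi.single_apply]
      rw [h6] at h5
      have h7 : y a.succ * (ε / 2) = 0 := by linarith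
      rcases mul_eq_zero.1 h7 with h8 | h8
      · exact h8
      · linarith
    intro i
    refine Fin.cases ?_ (fun a => ?_) i
    · simp_rw [hya] at hx0
      simpa using hx0
    · exact hya a
  -- extend by one row
  have hspan : ∃ u : Fin (n + 2) → ℝ,
      u ∉ Submodule.span ℝ (range fun (i : Fin (n + 1)) (k : Fin (n + 2)) => hom (v k) i) := by
    by_contra hc
    push Not at hc
    have h1 : Submodule.span ℝ
        (range fun (i : Fin (n + 1)) (k : Fin (n + 2)) => hom (v k) i) = ⊤ := by
      rw [eq_top_iff]
      exact fun u _ => hc u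
    have h2 := finrank_range_le_card (R := ℝ)
      (fun (i : Fin (n + 1)) (k : Fin (n + 2)) => hom (v k) i)
    rw [Set.finrank, h1, finrank_top, Module.finrank_fin_fun, Fintype.card_fin] at h2
    omega
  obtain ⟨u, hu⟩ := hspan
  have h3 : LinearIndependent ℝ (Fin.cons u (fun (i : Fin (n + 1)) (k : Fin (n + 2)) =>
      hom (v k) i) : Fin (n + 2) → Fin (n + 2) → ℝ) :=
    linearIndependent_finCons.2 ⟨hli, hu⟩
  have h4 : (Q v u).det ≠ 0 := by
    have h5 : LinearIndependent ℝ (Q v u).row := h3
    rw [Matrix.linearIndependent_rows_iff_isUnit, Matrix.isUnit_iff_isUnit_det] at h5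
    exact h5.ne_zero
  by_contra hc
  push Not at hc
  rw [det_Q] at h4
  simp [hc] at h4

end Vale.Agent.P254.FV
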