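import Vale.Agent.P254.FV.Final

/-!
Strict supermultiplicativity of the values of the simplices.
-/

namespace Vale.Agent.P254.FV

theorem bern3 {a : ℝ} (ha : 0 ≤ a) (k : ℕ) :
    1 + k * a + (k : ℝ) * (k - 1) / 2 * a ^ 2 ≤ (1 + a) ^ k := by
  induction k with
  | zero => simp
  | succ k ih =>
    rw [pow_succ]
    have h1 : (1 + k * a + (k : ℝ) * (k - 1) / 2 * a ^ 2) * (1 + a) ≤ (1 + a) ^ k * (1 + a) :=
      mul_le_mul_of_nonneg_right ih (by linarith)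
    refine le_trans ?_ h1
    push_cast
    have h2 : 0 ≤ (k : ℝ) * (k - 1) / 2 * a ^ 3 := by
      have h3 : 0 ≤ (k : ℝ) * (k - 1) := by
        rcases k with _ | k
        · simp
        · push_cast
          have : (0 : ℝ) ≤ k := Nat.cast_nonneg k
          nlinarith
      positivity
    nlinarith

theorem key_poly (n : ℕ) {u : ℝ} (hu : u = ((n : ℝ) + 1) * ((n : ℝ) + 4)) :
    ((n : ℝ) + 1) ^ 2 * ((n : ℝ) + 4) * ((n : ℝ) + 3) ^ 2 <
      (1 + ((n : ℝ) + 1) * (2 / u) + ((n : ℝ) + 1) * ((n : ℝ) + 1 - 1) / 2 * (2 / u) ^ 2) *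
        ((n : ℝ) + 2) ^ 5 := by
  have hn : (0 : ℝ) ≤ n := Nat.cast_nonneg n
  have e : (1 + ((n : ℝ) + 1) * (2 / u) + ((n : ℝ) + 1) * ((n : ℝ) + 1 - 1) / 2 * (2 / u) ^ 2) =
      (((n : ℝ) + 1) * ((n : ℝ) + 4) ^ 2 + 2 * (((n : ℝ) + 1) * ((n : ℝ) + 4)) + 2 * (n : ℝ)) /
        (((n : ℝ) + 1) * ((n : ℝ) + 4) ^ 2) := by
    rw [hu]
    field_simp
    ring
  rw [e, div_mul_eq_mul_div, lt_div_iff₀ (by positivity)]
  have : 0 < (((n : ℝ) + 1) * ((n : ℝ) + 4) ^ 2 + 2 * (((n : ℝ) + 1) * ((n : ℝ) + 4)) +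
      2 * (n : ℝ)) * ((n : ℝ) + 2) ^ 5 -
      ((n : ℝ) + 1) ^ 2 * ((n : ℝ) + 4) * ((n : ℝ) + 3) ^ 2 *
        (((n : ℝ) + 1) * ((n : ℝ) + 4) ^ 2) := by
    have e2 : (((n : ℝ) + 1) * ((n : ℝ) + 4) ^ 2 + 2 * (((n : ℝ) + 1) * ((n : ℝ) + 4)) +
      2 * (n : ℝ)) * ((n : ℝ) + 2) ^ 5 -
      ((n : ℝ) + 1) ^ 2 * ((n : ℝ) + 4) * ((n : ℝ) + 3) ^ 2 *
        (((n : ℝ) + 1) * ((n : ℝ) + 4) ^ 2) =
      2 * ((n : ℝ) + 1) ^ 5 + 29 * ((n : ℝ) + 1) ^ 4 + 83 * ((n : ℝ) + 1) ^ 3 +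
        73 * ((n : ℝ) + 1) ^ 2 + 7 * ((n : ℝ) + 1) - 2 := by
      ring
    rw [e2]
    nlinarith [pow_nonneg (add_nonneg hn zero_le_one) 5, pow_nonneg (add_nonneg hn zero_le_one) 4,
      pow_nonneg (add_nonneg hn zero_le_one) 3, pow_nonneg (add_nonneg hn zero_le_one) 2]
  linarith

theorem key_ineq (n : ℕ) :
    ((n : ℝ) + 1) ^ (n + 1) * ((n : ℝ) + 4) ^ (n + 1) * (((n : ℝ) + 1) ^ 2 * ((n : ℝ) + 4) *
      ((n : ℝ) + 3) ^ 2) <
    ((n : ℝ) + 2) ^ (n + 1) * ((n : ℝ) + 3) ^ (n + 1) * ((n : ℝ) + 2) ^ 5 := by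
  have hn : (0 : ℝ) ≤ n := Nat.cast_nonneg n
  set u : ℝ := ((n : ℝ) + 1) * ((n : ℝ) + 4) with hu
  have hu0 : 0 < u := by positivity
  have h1 := bern3 (a := 2 / u) (by positivity) (n + 1)
  have h2 : ((n : ℝ) + 2) ^ (n + 1) * ((n : ℝ) + 3) ^ (n + 1) =
      ((n : ℝ) + 1) ^ (n + 1) * ((n : ℝ) + 4) ^ (n + 1) * (1 + 2 / u) ^ (n + 1) := by
    rw [← mul_pow, ← mul_pow, ← mul_pow, ← hu]
    congr 1
    have h3 : u * (1 + 2 / u) = u + 2 := by field_simp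
    rw [h3, hu]
    ring
  rw [h2]
  set A : ℝ := ((n : ℝ) + 1) ^ (n + 1) * ((n : ℝ) + 4) ^ (n + 1) with hA
  have hA0 : 0 < A := by positivity
  have h5 : A * (((n : ℝ) + 1) ^ 2 * ((n : ℝ) + 4) * ((n : ℝ) + 3) ^ 2) <
      A * ((1 + ((n + 1 : ℕ) : ℝ) * (2 / u) +
        ((n + 1 : ℕ) : ℝ) * (((n + 1 : ℕ) : ℝ) - 1) / 2 * (2 / u) ^ 2) * ((n : ℝ) + 2) ^ 5) := by
    refine (mul_lt_mul_iff_right₀ hA0).2 ?_
    push_cast
    exact key_poly n hu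
  refine h5.trans_le ?_
  rw [mul_assoc A ((1 + 2 / u) ^ (n + 1))]
  exact mul_le_mul_of_nonneg_left (mul_le_mul_of_nonneg_right h1 (by positivity)) hA0.le

theorem simpC_ratio (n : ℕ) :
    simpC (n + 1) * simpC (n + 1) < simpC n * simpC (n + 2) := by
  have hk := key_ineq n
  unfold simpC
  rw [Nat.factorial_succ (n + 1), Nat.factorial_succ n]
  push_cast
  have h4 : ((n : ℝ) + 1 + 1) = (n : ℝ) + 2 := by ring
  have h5 : ((n : ℝ) + 1 + 2) = (n : ℝ) + 3 := by ring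
  have h6 : ((n : ℝ) + 2 + 1) = (n : ℝ) + 3 := by ring
  have h7 : ((n : ℝ) + 2 + 2) = (n : ℝ) + 4 := by ring
  rw [h4, h5, h6, h7]
  have hf : (0 : ℝ) < n.factorial := by positivity
  rw [div_mul_div_comm, div_mul_div_comm, div_lt_div_iff₀ (by positivity) (by positivity)]
  set a : ℝ := (n : ℝ) + 1
  set b : ℝ := (n : ℝ) + 2
  set c : ℝ := (n : ℝ) + 3
  set d : ℝ := (n : ℝ) + 4
  have ha : 0 < a := by positivity
  have hb : 0 < b := by positivity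
  have hc : 0 < c := by positivity
  have hd : 0 < d := by positivity
  have h8 : 0 < (n.factorial : ℝ) ^ 4 * a ^ 2 * b ^ n * c ^ (n + 1) := by positivity
  have h9 := (mul_lt_mul_iff_right₀ h8).2 hk
  clear_value a b c d
  calc _ = (n.factorial : ℝ) ^ 4 * a ^ 2 * b ^ n * c ^ (n + 1) *
        (a ^ (n + 1) * d ^ (n + 1) * (a ^ 2 * d * c ^ 2)) := by ring
    _ < _ := h9
    _ = _ := by ring

theorem simpC_zero : simpC 0 = 1 := by simp [simpC]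

theorem simpC_mul_le (p q : ℕ) : simpC p * simpC q ≤ simpC (p + q) ∧
    (1 ≤ p → 1 ≤ q → simpC p * simpC q < simpC (p + q)) := by
  let r : ℕ → ℝ := fun n => simpC (n + 1) / simpC n
  have hr : StrictMono r := by
    refine strictMono_nat_of_lt_succ fun n => ?_
    simp only [r]
    rw [div_lt_div_iff₀ (simpC_pos n) (simpC_pos (n + 1))]
    have := simpC_ratio n
    linarith [mul_comm (simpC n) (simpC (n + 2))]
  have hstep : ∀ n, simpC (n + 1) = simpC n * r n := fun n => by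
    simp only [r]
    rw [mul_div_cancel₀ _ (simpC_pos n).ne']
  have hrpos : ∀ n, 0 < r n := fun n => div_pos (simpC_pos _) (simpC_pos _)
  induction q with
  | zero => simp [simpC_zero]
  | succ q ih =>
    have h1 : simpC p * simpC (q + 1) ≤ simpC (p + q) * r q := by
      rw [hstep q, ← mul_assoc]
      exact mul_le_mul_of_nonneg_right ih.1 (hrpos q).le
    have h2 : simpC (p + (q + 1)) = simpC (p + q) * r (p + q) := hstep (p + q)
    rw [h2]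
    refine ⟨h1.trans (mul_le_mul_of_nonneg_left (hr.monotone (by omega)) (simpC_pos _).le), ?_⟩
    intro hp _
    exact h1.trans_lt ((mul_lt_mul_iff_right₀ (simpC_pos _)).2 (hr (by omega)))

end Vale.Agent.P254.FV
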