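import Vale.Agent.P254.FV.Sum5
import Vale.Agent.P254.FV.SimpC

/-!
The conjecture for one convex body, in terms of the normalised determinant, and its closure
properties.
-/

open MeasureTheory Set Matrix

namespace Vale.Agent.P254.FV

variable {m n : ℕ}

theorem Dn_nonneg {K : Set (Fin n → ℝ)} (hK : IsConvexBody K) : 0 ≤ Dn K :=
  div_nonneg (covMatrix_posSemidef hK.2.1).det_nonneg (by positivity)

theorem isoConst_eq (K : Set (Fin n → ℝ)) : isoConst K = Dn K ^ (1 / (2 * (n : ℝ))) := rfl

theorem isSimplex_stdS : IsSimplex (stdS n) :=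
  ⟨stdV n, affineIndependent_stdV, stdS_eq_convexHull⟩

theorem Dn_stdS (hn : 1 ≤ n) : Dn (stdS n) = simpC n := det_simplex hn

/-- the conjecture for `K`, in terms of the normalised determinant -/
structure Good {n : ℕ} (K : Set (Fin n → ℝ)) : Prop where
  one_le : 1 ≤ n
  body : IsConvexBody K
  le : Dn K ≤ simpC n
  eq : Dn K = simpC n → IsSimplex K

theorem good_of {K : Set (Fin n → ℝ)} (hn : 1 ≤ n) (hK : IsConvexBody K)
    (h : ∀ S : Set (Fin n → ℝ), IsSimplex S →
      isoConst K ≤ isoConst S ∧ (isoConst K = isoConst S ↔ IsSimplex K)) : Good K := by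
  obtain ⟨h1, h2⟩ := h (stdS n) isSimplex_stdS
  have he : (0 : ℝ) < 1 / (2 * (n : ℝ)) := by positivity
  refine ⟨hn, hK, ?_, fun h3 => h2.1 ?_⟩
  · rw [isoConst_eq, isoConst_eq, Dn_stdS hn,
      Real.rpow_le_rpow_iff (Dn_nonneg hK) (simpC_pos n).le he] at h1
    exact h1
  · rw [isoConst_eq, isoConst_eq, Dn_stdS hn, h3]

theorem Good.iso {K S : Set (Fin n → ℝ)} (hK : Good K) (hS : IsSimplex S) :
    isoConst K ≤ isoConst S ∧ (isoConst K = isoConst S ↔ IsSimplex K) := by
  have he : (0 : ℝ) < 1 / (2 * (n : ℝ)) := by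
    have := hK.one_le
    positivity
  have hS' : isoConst S = simpC n ^ (1 / (2 * (n : ℝ))) := by
    rw [isoConst_simplex hS, isoConst_eq, Dn_stdS hK.one_le]
  refine ⟨?_, fun h => hK.eq ?_, fun h => ?_⟩
  · rw [hS', isoConst_eq]
    exact Real.rpow_le_rpow (Dn_nonneg hK.body) hK.le he.le
  · rw [hS', isoConst_eq] at h
    exact (Real.rpow_left_inj (Dn_nonneg hK.body) (simpC_pos n).le he.ne').1 h
  · rw [isoConst_simplex h, isoConst_simplex hS]

theorem isSimplex_aff {K : Set (Fin n → ℝ)} (hK : IsSimplex K) {A : Matrix (Fin n) (Fin n) ℝ}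
    (hA : A.det ≠ 0) (b : Fin n → ℝ) : IsSimplex (aff A b '' K) := by
  obtain ⟨A', b', hA', rfl⟩ := hK.exists_aff
  have e : aff A b '' (aff A' b' '' stdS n) = aff (A * A') (A *ᵥ b' + b) '' stdS n := by
    rw [← image_comp]
    congr 1
    ext x i
    simp [aff, mulVec_add, mulVec_mulVec, add_assoc]
  rw [e]
  exact isSimplex_image (by rw [det_mul]; exact mul_ne_zero hA hA') _

theorem Good.aff {K : Set (Fin n → ℝ)} (hK : Good K) {A : Matrix (Fin n) (Fin n) ℝ}
    (hA : A.det ≠ 0) (b : Fin n → ℝ) : Good (aff A b '' K) := by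
  have hV := (vol_pos hK.body).ne'
  have hb : IsConvexBody (P254.aff A b '' K) := by
    refine body_of_vol ?_ (isCompact_aff_image A b hK.body.2.1) ?_
    · rw [← coe_affMap]
      exact hK.body.1.affine_image _
    · rw [volume_aff_image hA b hK.body.2.1.measurableSet]
      exact mul_ne_zero (abs_ne_zero.2 hA) hV
  have hD : Dn (P254.aff A b '' K) = Dn K := by
    unfold Dn
    rw [cov_aff_image hA b hK.body.2.1 hV, volume_aff_image hA b hK.body.2.1.measurableSet,
      det_mul, det_mul, det_transpose, mul_pow, sq_abs]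
    field_simp
  exact ⟨hK.one_le, hb, hD.le.trans hK.le, fun h => isSimplex_aff (hK.eq (hD ▸ h)) hA b⟩

theorem Good.pyramid {K : Set (Fin n → ℝ)} (hK : Good K) : Good (P254.pyramid K) := by
  have hne : K.Nonempty := hK.body.2.2.mono interior_subset
  have hD := Dn_pyr hK.body.2.1 (vol_pos hK.body).ne'
  rw [← pyramid_eq hK.body.1 hne] at hD
  have hC := simpC_pos n
  have hC' := simpC_pos (n + 1)
  refine ⟨by omega, body_pyramid hK.body, ?_, fun h => isSimplex_pyramid (hK.eq ?_)⟩
  · have h1 : Dn (P254.pyramid K) * simpC n ≤ simpC (n + 1) * simpC n := by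
      rw [hD]
      nlinarith [hK.le]
    exact le_of_mul_le_mul_right h1 hC
  · rw [h, mul_comm] at hD
    exact (mul_right_cancel₀ hC'.ne' hD).symm

theorem Good.prod {K : Set (Fin m → ℝ)} {L : Set (Fin n → ℝ)} (hK : Good K) (hL : Good L) :
    Good (directProd K L) := by
  have hD := Dn_prod hK.body hL.body
  have h1 : Dn K * Dn L ≤ simpC m * simpC n :=
    mul_le_mul hK.le hL.le (Dn_nonneg hL.body) (simpC_pos m).le
  have h2 := (simpC_mul_le m n).2 hK.one_le hL.one_le
  refine ⟨by have := hK.one_le; omega, body_prod hK.body hL.body, ?_, fun h => ?_⟩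
  · rw [hD]; linarith
  · rw [hD] at h; linarith

theorem Good.freeSum {K : Set (Fin m → ℝ)} {L : Set (Fin n → ℝ)} (hK : Good K) (hL : Good L)
    (hK0 : (0 : Fin m → ℝ) ∈ K) (hL0 : (0 : Fin n → ℝ) ∈ L) : Good (P254.freeSum K L) := by
  have hm := hK.one_le
  have hn := hL.one_le
  have hbody : IsConvexBody (P254.freeSum K L) := by
    rw [freeSum_eq hK.body.1 hL.body.1 hK0 hL0]
    refine body_of_vol (convex_sumS hK.body.1 hL.body.1) (isCompact_sumS hK.body.2.1 hL.body.2.1) ?_
    rw [vol_sumS hK.body.1 hK.body.2.1 hK0 hL.body.1 hL.body.2.1 hL0]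
    exact mul_ne_zero (qq_ne m n) (mul_ne_zero (vol_pos hK.body).ne' (vol_pos hL.body).ne')
  obtain ⟨T, hT0, hT1, hD⟩ := Dn_sumS hm hn hK.body hK0 hL.body hL0
  rw [← freeSum_eq hK.body.1 hL.body.1 hK0 hL0] at hD
  have hCm := simpC_pos m
  have hCn := simpC_pos n
  have hC := simpC_pos (m + n)
  have hDK := Dn_nonneg hK.body
  have hDL := Dn_nonneg hL.body
  have h1 : Dn K * Dn L ≤ simpC m * simpC n := mul_le_mul hK.le hL.le hDL hCm.le
  have h2 : Dn K * Dn L * T ≤ simpC m * simpC n := by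
    nlinarith [mul_nonneg hDK hDL]
  refine ⟨by omega, hbody, ?_, fun h => ?_⟩
  · have h3 : Dn (P254.freeSum K L) * (simpC m * simpC n) ≤
        simpC (m + n) * (simpC m * simpC n) := by
      rw [hD]
      nlinarith
    exact le_of_mul_le_mul_right h3 (mul_pos hCm hCn)
  · rw [h, mul_comm] at hD
    have h3 : simpC m * simpC n = Dn K * Dn L * T := mul_right_cancel₀ hC.ne' hD
    have h4 : simpC m * simpC n ≤ Dn K * Dn L := by
      nlinarith [mul_nonneg hDK hDL]
    have h5 : Dn K = simpC m := by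
      refine le_antisymm hK.le ?_
      by_contra hlt
      rw [not_le] at hlt
      nlinarith [hL.le]
    have h6 : Dn L = simpC n := by
      refine le_antisymm hL.le ?_
      by_contra hlt
      rw [not_le] at hlt
      nlinarith [hK.le]
    obtain ⟨u, hu⟩ := freeSum_simplex (hK.eq h5) (hL.eq h6)
    have hgood : Good (P254.freeSum K L) := by
      refine good_of (by omega) hbody fun S hS => ?_
      have hne := hbody.2.2
      rw [hu] at hne ⊢
      obtain ⟨r1, r2, _⟩ := few_vertices (by omega) u hne hS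
      exact ⟨r1, r2⟩
    exact hgood.eq h

theorem lt_conj {K S : Set (Fin n → ℝ)} (hS : IsSimplex S) (h : isoConst K < isoConst S) :
    isoConst K ≤ isoConst S ∧ (isoConst K = isoConst S ↔ IsSimplex K) :=
  ⟨h.le, fun h1 => absurd h1 h.ne, fun h1 => by rw [isoConst_simplex h1, isoConst_simplex hS]⟩

end Vale.Agent.P254.FV
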