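import Vale.Agent.P254.Assembly

/-!
Integrals over simplices and over polytopes with `n + 2` vertices.
-/

open MeasureTheory Set Matrix
open scoped Pointwise

namespace Vale.Agent.P254.FV

variable {n : ℕ}

/-- membership in the hull of a finite family -/
theorem mem_hull {ι : Type*} [Fintype ι] {v : ι → Fin n → ℝ} {x : Fin n → ℝ} :
    x ∈ convexHull ℝ (range v) ↔
      ∃ w : ι → ℝ, (∀ i, 0 ≤ w i) ∧ ∑ i, w i = 1 ∧ ∀ a, ∑ i, w i * v i a = x a := by
  classical
  constructor
  · intro hx
    have h := convexHull_min (𝕜 := ℝ) (s := range v)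
      (t := {x : Fin n → ℝ | ∃ w : ι → ℝ, (∀ i, 0 ≤ w i) ∧ ∑ i, w i = 1 ∧
        ∀ a, ∑ i, w i * v i a = x a}) ?_ ?_
    · exact h hx
    · rintro _ ⟨i, rfl⟩
      refine ⟨Pi.single i 1, fun j => ?_, by simp, fun a => ?_⟩
      · by_cases h : j = i
        · subst h; simp
        · simp [h]
      · simp [Pi.single_apply]
    · rintro x ⟨w, h1, h2, h3⟩ y ⟨w', h1', h2', h3'⟩ a b ha hb hab
      refine ⟨fun i => a * w i + b * w' i, fun i => ?_, ?_, fun k => ?_⟩
      · have := h1 i
        have := h1' i
        positivity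
      · rw [Finset.sum_add_distrib, ← Finset.mul_sum, ← Finset.mul_sum, h2, h2']
        linarith
      · simp only [Pi.add_apply, Pi.smul_apply, smul_eq_mul]
        rw [← h3 k, ← h3' k, Finset.mul_sum, Finset.mul_sum, ← Finset.sum_add_distrib]
        exact Finset.sum_congr rfl fun i _ => by ring
  · rintro ⟨w, h1, h2, h3⟩
    have h := (convex_convexHull ℝ (range v)).sum_mem (t := Finset.univ) (w := w) (z := v)
      (fun i _ => h1 i) h2 (fun i _ => subset_convexHull ℝ _ (mem_range_self i))
    have e : ∑ i, w i • v i = x := by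
      ext a
      rw [Finset.sum_apply, ← h3 a]
      rfl
    rwa [e] at h

/-- barycentric coordinates on the standard simplex -/
def bc (x : Fin n → ℝ) : Fin (n + 1) → ℝ := Fin.cons (1 - ∑ k, x k) x

/-- edge matrix -/
def edge (w : Fin (n + 1) → Fin n → ℝ) : Matrix (Fin n) (Fin n) ℝ :=
  Matrix.of fun i k => w k.succ i - w 0 i

theorem aff_edge (w : Fin (n + 1) → Fin n → ℝ) (x : Fin n → ℝ) (a : Fin n) :
    aff (edge w) (w 0) x a = ∑ j, bc x j * w j a := by
  rw [aff_apply, Fin.sum_univ_succ]
  simp only [bc, Fin.cons_zero, Fin.cons_succ, edge, Matrix.of_apply]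
  rw [sub_mul, one_mul, Finset.sum_mul]
  have : ∑ j, (w j.succ a - w 0 a) * x j = ∑ j, x j * w j.succ a - ∑ j, x j * w 0 a := by
    rw [← Finset.sum_sub_distrib]
    exact Finset.sum_congr rfl fun i _ => by ring
  rw [this]
  ring

theorem image_edge (w : Fin (n + 1) → Fin n → ℝ) :
    aff (edge w) (w 0) '' stdS n = convexHull ℝ (range w) := by
  rw [image_stdS]
  congr 2
  ext i j
  refine Fin.cases ?_ (fun k => ?_) i
  · simp [stdV_zero, aff]
  · rw [stdV_succ, aff_apply]
    simp [edge, Pi.single_apply]

theorem integral_bc (i : Fin (n + 1)) :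
    ∫ x in stdS n, bc x i = 1 / ((n + 1).factorial : ℝ) := by
  refine Fin.cases ?_ (fun k => ?_) i
  · simp only [bc, Fin.cons_zero]
    rw [integral_sub (intOn isCompact_stdS (by fun_prop)) (intOn isCompact_stdS (by fun_prop)),
      integral_finsetSum _ (fun i _ => intOn isCompact_stdS (by fun_prop))]
    simp_rw [integral_stdS_x]
    rw [setIntegral_const, Measure.real, volume_stdS, Nat.factorial_succ]
    simp
    field_simp
    ring
  · simp only [bc, Fin.cons_succ]
    exact integral_stdS_x k

theorem integral_bc_bc (i j : Fin (n + 1)) :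
    ∫ x in stdS n, bc x i * bc x j = (if i = j then 2 else 1) / ((n + 2).factorial : ℝ) := by
  have hc : ∀ f : (Fin n → ℝ) → ℝ, Continuous f → IntegrableOn f (stdS n) := fun f hf =>
    intOn isCompact_stdS hf
  have key : ∀ k : Fin n, ∫ x in stdS n, (1 - ∑ l, x l) * x k = 1 / ((n + 2).factorial : ℝ) := by
    intro k
    have e : ∀ x : Fin n → ℝ, (1 - ∑ l, x l) * x k = x k - ∑ l, x l * x k := by
      intro x
      rw [sub_mul, one_mul, Finset.sum_mul]
    simp_rw [e]
    rw [integral_sub (hc _ (by fun_prop)) (hc _ (by fun_prop)),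
      integral_finsetSum _ (fun i _ => hc _ (by fun_prop))]
    simp_rw [integral_stdS_xx, integral_stdS_x]
    rw [← Finset.sum_div]
    have e2 : ∑ i : Fin n, (if i = k then (2 : ℝ) else 1) = n + 1 := by
      have : ∀ i : Fin n, (if i = k then (2 : ℝ) else 1) = 1 + if i = k then 1 else 0 := by
        intro i; split_ifs <;> norm_num
      simp_rw [this]
      rw [Finset.sum_add_distrib]
      simp
    rw [e2, Nat.factorial_succ (n + 1)]
    push_cast
    have : ((n + 1).factorial : ℝ) ≠ 0 := by positivity
    have : ((n : ℝ) + 1 + 1) ≠ 0 := by positivity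
    field_simp
    ring
  refine Fin.cases ?_ (fun k => ?_) i
  · refine Fin.cases ?_ (fun l => ?_) j
    · simp only [bc, Fin.cons_zero, if_true]
      have e : ∀ x : Fin n → ℝ, (1 - ∑ l, x l) * (1 - ∑ l, x l) =
          (1 - ∑ l, x l) - ∑ k, (1 - ∑ l, x l) * x k := by
        intro x
        rw [← Finset.mul_sum]
        ring
      simp_rw [e]
      have h0 := integral_bc (n := n) 0
      simp only [bc, Fin.cons_zero] at h0
      rw [integral_sub (hc _ (by fun_prop)) (hc _ (by fun_prop)),
        integral_finsetSum _ (fun i _ => hc _ (by fun_prop)), h0]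
      simp_rw [key]
      rw [Finset.sum_const, Nat.factorial_succ (n + 1)]
      push_cast
      have : ((n + 1).factorial : ℝ) ≠ 0 := by positivity
      have : ((n : ℝ) + 1 + 1) ≠ 0 := by positivity
      simp
      field_simp
      ring
    · simp only [bc, Fin.cons_zero, Fin.cons_succ]
      rw [key l, if_neg (Fin.succ_ne_zero l).symm]
  · refine Fin.cases ?_ (fun l => ?_) j
    · simp only [bc, Fin.cons_zero, Fin.cons_succ]
      have e : ∀ x : Fin n → ℝ, x k * (1 - ∑ l, x l) = (1 - ∑ l, x l) * x k := fun x => mul_comm _ _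
      simp_rw [e]
      rw [key k, if_neg (Fin.succ_ne_zero k)]
    · simp only [bc, Fin.cons_succ]
      rw [integral_stdS_xx]
      simp [Fin.succ_inj]

theorem vol_simp {w : Fin (n + 1) → Fin n → ℝ} (hw : (edge w).det ≠ 0) :
    (volume (convexHull ℝ (range w))).toReal = |(edge w).det| / (n.factorial : ℝ) := by
  rw [← image_edge, volume_aff_image hw _ isCompact_stdS.measurableSet, volume_stdS]
  ring

theorem int_simp {w : Fin (n + 1) → Fin n → ℝ} (hw : (edge w).det ≠ 0) (a : Fin n) :
    ∫ x in convexHull ℝ (range w), x a =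
      |(edge w).det| / ((n + 1).factorial : ℝ) * ∑ j, w j a := by
  rw [← image_edge, setIntegral_aff_image hw _ isCompact_stdS.measurableSet]
  simp_rw [aff_edge]
  have hc : ∀ j : Fin (n + 1), Continuous fun x : Fin n → ℝ => bc x j * w j a := by
    intro j
    refine Fin.cases ?_ (fun k => ?_) j
    · simp only [bc, Fin.cons_zero]; fun_prop
    · simp only [bc, Fin.cons_succ]; fun_prop
  rw [integral_finsetSum _ (fun i _ => intOn isCompact_stdS (hc i))]
  simp_rw [integral_mul_const, integral_bc]
  rw [← Finset.mul_sum]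
  ring

theorem int_simp2 {w : Fin (n + 1) → Fin n → ℝ} (hw : (edge w).det ≠ 0) (a b : Fin n) :
    ∫ x in convexHull ℝ (range w), x a * x b =
      |(edge w).det| / ((n + 2).factorial : ℝ) *
        (∑ j, w j a * w j b + (∑ j, w j a) * ∑ j, w j b) := by
  rw [← image_edge, setIntegral_aff_image hw _ isCompact_stdS.measurableSet]
  simp_rw [aff_edge, Finset.sum_mul_sum]
  have hc : ∀ i j : Fin (n + 1), Continuous fun x : Fin n → ℝ => bc x i * w i a * (bc x j * w j b) := by
    intro i j
    have h : ∀ j : Fin (n + 1), Continuous fun x : Fin n → ℝ => bc x j := by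
      intro j
      refine Fin.cases ?_ (fun k => ?_) j
      · simp only [bc, Fin.cons_zero]; fun_prop
      · simp only [bc, Fin.cons_succ]; fun_prop
    have h1 := h i
    have h2 := h j
    fun_prop
  rw [integral_finsetSum _ (fun i _ => intOn isCompact_stdS (continuous_finsetSum _ fun j _ => hc i j))]
  have e : ∀ i : Fin (n + 1), ∫ x in stdS n, ∑ j, bc x i * w i a * (bc x j * w j b) =
      ∑ j, (if i = j then 2 else 1) / ((n + 2).factorial : ℝ) * (w i a * w j b) := by
    intro i
    rw [integral_finsetSum _ (fun j _ => intOn isCompact_stdS (hc i j))]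
    refine Finset.sum_congr rfl fun j _ => ?_
    rw [← integral_bc_bc, ← integral_mul_const]
    refine integral_congr_ae (Filter.Eventually.of_forall fun x => ?_)
    simp only
    ring
  simp_rw [e]
  rw [← Finset.sum_add_distrib, div_mul_eq_mul_div, mul_div_assoc]
  congr 1
  rw [Finset.sum_div]
  refine Finset.sum_congr rfl fun i _ => ?_
  have e2 : ∀ j : Fin (n + 1), (if i = j then (2 : ℝ) else 1) / ((n + 2).factorial : ℝ) *
      (w i a * w j b) = (if i = j then w i a * w j b / ((n + 2).factorial : ℝ) else 0) +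
        w i a * w j b / ((n + 2).factorial : ℝ) := by
    intro j
    split_ifs <;> ring
  simp_rw [e2]
  rw [Finset.sum_add_distrib, Finset.sum_ite_eq, if_pos (Finset.mem_univ i), ← Finset.sum_div]
  ring

end Vale.Agent.P254.FV
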