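import Vale.Agent.P254.FV.Final
import Vale.Agent.P254.FV.Full

/-!
The strong isotropic constant conjecture for polytopes with at most `n + 2` vertices.
-/

open MeasureTheory Set Matrix

namespace Vale.Agent.P254.FV

variable {n : ℕ}

theorem isSimplex_face {v : Fin (n + 2) → Fin n → ℝ} {k : Fin (n + 2)} (hk : minor v k ≠ 0) :
    IsSimplex (face v k) := by
  have h : (edge fun j => v (k.succAbove j)).det ≠ 0 := by
    rw [← abs_pos, ← abs_minor]
    exact abs_pos.2 hk
  rw [face, ← image_edge]
  exact isSimplex_image h _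

theorem isSimplex_of_single {v : Fin (n + 2) → Fin n → ℝ} {c : Fin (n + 2) → ℝ}
    (hc : ∑ k, c k = 0) (hcv : ∀ a, ∑ k, c k * v k a = 0) {k : Fin (n + 2)} (hk : 0 < c k)
    (hj : ∀ j, j ≠ k → c j ≤ 0) (hm : minor v k ≠ 0) :
    IsSimplex (convexHull ℝ (range v)) := by
  have h : convexHull ℝ (range v) = face v k := by
    rw [hull_eq_iUnion' hc hcv ⟨k, hk⟩]
    apply Subset.antisymm
    · refine iUnion_subset fun j => ?_
      have : j.1 = k := by
        by_contra hne
        exact absurd j.2 (not_lt.2 (hj j.1 hne))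
      rw [this]
    · exact subset_iUnion (fun j : {k // 0 < c k} => face v j) ⟨k, hk⟩
  rw [h]
  exact isSimplex_face hm

theorem isoConst_pow (hn : 1 ≤ n) {K : Set (Fin n → ℝ)} {d : ℝ} (hd : 0 ≤ d)
    (h : (covMatrix K).det / (volume K).toReal ^ 2 = d) : isoConst K ^ (2 * n) = d := by
  rw [isoConst, h, ← Real.rpow_natCast, ← Real.rpow_mul hd]
  have : (1 / (2 * (n : ℝ))) * ((2 * n : ℕ) : ℝ) = 1 := by
    have : (n : ℝ) ≠ 0 := by positivity
    push_cast
    field_simp
  rw [this, Real.rpow_one]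

theorem few_vertices (hn : 1 ≤ n) (v : Fin (n + 2) → Fin n → ℝ)
    (hK : (interior (convexHull ℝ (range v))).Nonempty) {S : Set (Fin n → ℝ)} (hS : IsSimplex S) :
    isoConst (convexHull ℝ (range v)) ≤ isoConst S ∧
    (isoConst (convexHull ℝ (range v)) = isoConst S ↔ IsSimplex (convexHull ℝ (range v))) ∧
    ∀ c : Fin (n + 2) → ℝ, c ≠ 0 → ∑ i, c i = 0 → ∑ i, c i • v i = 0 →
      isoConst (convexHull ℝ (range v)) ^ (2 * n) = isoConst S ^ (2 * n) *
        (1 - (1 - ∑ i, (max (c i) 0 / ∑ j, max (c j) 0) ^ 2) *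
          (1 - ∑ i, (max (-c i) 0 / ∑ j, max (-c j) 0) ^ 2)) := by
  have hmin := exists_minor_ne hK
  have hpos := exists_pos_of_sum (sum_minor v) hmin
  have hneg : ∃ k, 0 < -minor v k :=
    exists_pos_of_sum (c := fun k => -minor v k)
      (by rw [Finset.sum_neg_distrib, sum_minor, neg_zero])
      (by obtain ⟨k, hk⟩ := hmin; exact ⟨k, neg_ne_zero.2 hk⟩)
  have hS0 := isoConst_simplex hS
  have hSd := det_simplex hn
  have hC := simpC_pos n
  have hKd := det_formula hn hpos
  set A := sqp (minor v) with hA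
  set B := sqp (fun k => -minor v k) with hB
  have hA1 : A ≤ 1 := sqp_le_one hpos
  have hB1 : B ≤ 1 := sqp_le_one hneg
  have hA0 : 0 < A := sqp_pos hpos
  have hB0 : 0 < B := sqp_pos hneg
  have hF1 : 1 - (1 - A) * (1 - B) ≤ 1 := by
    have := mul_nonneg (sub_nonneg.2 hA1) (sub_nonneg.2 hB1)
    linarith
  have hF0 : 0 < 1 - (1 - A) * (1 - B) := by nlinarith
  have hle : isoConst (convexHull ℝ (range v)) ≤ isoConst S := by
    rw [hS0, isoConst, isoConst, hKd, hSd]
    refine Real.rpow_le_rpow (by positivity) ?_ (by positivity)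
    nlinarith
  refine ⟨hle, ⟨fun heq => ?_, fun hs => ?_⟩, fun c hc0 hc hcv => ?_⟩
  · -- equality case
    have h1 : isoConst (convexHull ℝ (range v)) ^ (2 * n) =
        simpC n * (1 - (1 - A) * (1 - B)) := isoConst_pow hn (by positivity) hKd
    have h2 : isoConst S ^ (2 * n) = simpC n := by
      rw [hS0]
      exact isoConst_pow hn hC.le hSd
    rw [heq, h2] at h1
    have h3 : (1 - A) * (1 - B) = 0 := by
      have h4 : simpC n * ((1 - A) * (1 - B)) = 0 := by linarith
      rcases mul_eq_zero.1 h4 with h5 | h5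
      · exact absurd h5 hC.ne'
      · exact h5
    rcases mul_eq_zero.1 h3 with h4 | h4
    · obtain ⟨k, hk, hj⟩ := sqp_eq_one hpos (show sqp (minor v) = 1 by rw [← hA]; linarith)
      exact isSimplex_of_single (sum_minor v) (sum_minor_mul v) hk hj hk.ne'
    · obtain ⟨k, hk, hj⟩ := sqp_eq_one hneg
        (show sqp (fun k => -minor v k) = 1 by rw [← hB]; linarith)
      refine isSimplex_of_single (c := fun k => -minor v k)
        (by rw [Finset.sum_neg_distrib, sum_minor, neg_zero]) ?_ hk hj (neg_pos.1 hk).ne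
      intro a
      simp_rw [neg_mul]
      rw [Finset.sum_neg_distrib, sum_minor_mul, neg_zero]
  · rw [isoConst_simplex hs, hS0]
  · have hc0' : ∃ k, c k ≠ 0 := by
      by_contra hcon
      push Not at hcon
      exact hc0 (funext hcon)
    have hcv' : ∀ a, ∑ k, c k * v k a = 0 := by
      intro a
      have := congrFun hcv a
      rw [Finset.sum_apply] at this
      simpa using this
    have hf := det_formula' hn hmin hc0' hc hcv'
    have hfpos : 0 ≤ simpC n * (1 - (1 - sqp c) * (1 - sqp fun k => -c k)) := by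
      rw [← hf, hKd]
      positivity
    rw [isoConst_pow hn hfpos hf, hS0, isoConst_pow hn hC.le hSd]
    rfl

end Vale.Agent.P254.FV
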