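import Vale.Agent.P254.FV.Int

/-!
Homogeneous coordinates, maximal minors and affine dependences of `n + 2` points.
-/

open Set Matrix

namespace Vale.Agent.P254.FV

variable {n : ℕ}

/-- homogeneous coordinates -/
def hom (x : Fin n → ℝ) : Fin (n + 1) → ℝ := Fin.cons 1 x

/-- matrix of homogeneous coordinates -/
def homM (w : Fin (n + 1) → Fin n → ℝ) : Matrix (Fin (n + 1)) (Fin (n + 1)) ℝ :=
  Matrix.of fun i j => hom (w j) i

theorem det_homM (w : Fin (n + 1) → Fin n → ℝ) : (homM w).det = (edge w).det := by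
  rw [← det_transpose (homM w), ← det_transpose (edge w)]
  let B : Matrix (Fin (n + 1)) (Fin (n + 1)) ℝ :=
    Matrix.of (Fin.cons (hom (w 0)) (fun i => hom (w i.succ) - hom (w 0)))
  have h1 : (homM w)ᵀ.det = B.det := by
    refine det_eq_of_forall_row_eq_smul_add_const (Fin.cons 0 (fun _ => 1)) 0 rfl ?_
    intro i j
    refine Fin.cases ?_ (fun k => ?_) i
    · simp [B, homM]
    · simp [B, homM]
  rw [h1, det_succ_column_zero, Fin.sum_univ_succ]
  have h2 : ∀ i : Fin n, (-1 : ℝ) ^ (i.succ : ℕ) * B i.succ 0 *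
      (B.submatrix i.succ.succAbove Fin.succ).det = 0 := by
    intro i
    simp [B, hom]
  rw [Finset.sum_eq_zero fun i _ => h2 i, add_zero]
  have h3 : B 0 0 = 1 := by simp [B, hom]
  rw [h3]
  simp only [Fin.val_zero, pow_zero, one_mul]
  congr 1

/-- signed maximal minors of the homogeneous coordinate matrix of `n + 2` points -/
noncomputable def minor (v : Fin (n + 2) → Fin n → ℝ) (k : Fin (n + 2)) : ℝ :=
  (-1) ^ (k : ℕ) * (homM fun j => v (k.succAbove j)).det

theorem abs_minor (v : Fin (n + 2) → Fin n → ℝ) (k : Fin (n + 2)) :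
    |minor v k| = |(edge fun j => v (k.succAbove j)).det| := by
  rw [minor, abs_mul, abs_pow, abs_neg, abs_one, one_pow, one_mul, det_homM]

/-- the matrix with first row `u` and the homogeneous coordinates below -/
def Q (v : Fin (n + 2) → Fin n → ℝ) (u : Fin (n + 2) → ℝ) : Matrix (Fin (n + 2)) (Fin (n + 2)) ℝ :=
  Matrix.of (Fin.cons u fun i k => hom (v k) i)

theorem det_Q (v : Fin (n + 2) → Fin n → ℝ) (u : Fin (n + 2) → ℝ) :
    (Q v u).det = ∑ k, u k * minor v k := by
  rw [det_succ_row_zero]
  refine Finset.sum_congr rfl fun k _ => ?_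
  have h1 : Q v u 0 k = u k := rfl
  have h2 : (Q v u).submatrix Fin.succ k.succAbove = homM fun j => v (k.succAbove j) := by
    ext i j
    simp [Q, homM]
  rw [h1, h2, minor]
  ring

theorem hom_minor (v : Fin (n + 2) → Fin n → ℝ) (i : Fin (n + 1)) :
    ∑ k, hom (v k) i * minor v k = 0 := by
  rw [← det_Q]
  refine det_zero_of_row_eq (i := 0) (j := i.succ) (Fin.succ_ne_zero i).symm ?_
  ext k
  simp [Q]

theorem sum_minor (v : Fin (n + 2) → Fin n → ℝ) : ∑ k, minor v k = 0 := by
  have := hom_minor v 0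
  simpa [hom] using this

theorem sum_minor_mul (v : Fin (n + 2) → Fin n → ℝ) (a : Fin n) :
    ∑ k, minor v k * v k a = 0 := by
  have := hom_minor v a.succ
  simp only [hom, Fin.cons_succ] at this
  rw [← this]
  exact Finset.sum_congr rfl fun k _ => mul_comm _ _

/-- the affine dependences form a line -/
theorem ker_minor {v : Fin (n + 2) → Fin n → ℝ} {k : Fin (n + 2)} (hk : minor v k ≠ 0)
    {c : Fin (n + 2) → ℝ} (h1 : ∑ k, c k = 0) (h2 : ∀ a, ∑ k, c k * v k a = 0) :
    ∀ j, c j = c k / minor v k * minor v j := by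
  set t := c k / minor v k with ht
  set d : Fin (n + 2) → ℝ := fun j => c j - t * minor v j with hd
  have hdk : d k = 0 := by
    simp only [hd, ht]
    rw [div_mul_cancel₀ _ hk, sub_self]
  have hd1 : ∀ i : Fin (n + 1), ∑ j, hom (v j) i * d j = 0 := by
    intro i
    have e : ∀ j, hom (v j) i * d j = hom (v j) i * c j - t * (hom (v j) i * minor v j) := by
      intro j; simp only [hd]; ring
    simp_rw [e]
    rw [Finset.sum_sub_distrib, ← Finset.mul_sum, hom_minor, mul_zero, sub_zero]
    refine Fin.cases ?_ (fun a => ?_) i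
    · simpa [hom] using h1
    · simp only [hom, Fin.cons_succ]
      rw [← h2 a]
      exact Finset.sum_congr rfl fun k _ => mul_comm _ _
  have hd2 : (homM fun j => v (k.succAbove j)) *ᵥ (fun j => d (k.succAbove j)) = 0 := by
    ext i
    have := hd1 i
    rw [Fin.sum_univ_succAbove _ k, hdk, mul_zero, zero_add] at this
    simpa [mulVec, dotProduct, homM] using this
  have hdet : (homM fun j => v (k.succAbove j)).det ≠ 0 := by
    intro h
    apply hk
    rw [minor, h, mul_zero]
  have hd3 := Matrix.eq_zero_of_mulVec_eq_zero hdet hd2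
  intro j
  have : d j = 0 := by
    rcases eq_or_ne j k with rfl | hj
    · exact hdk
    · obtain ⟨z, rfl⟩ := Fin.exists_succAbove_eq hj
      exact congrFun hd3 z
  simp only [hd] at this
  linarith

end Vale.Agent.P254.FV
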