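import Vale.Agent.P254.FV.Decomp

/-!
Moments of the hull of `n + 2` points.
-/

open MeasureTheory Set Matrix

namespace Vale.Agent.P254.FV

variable {n : ℕ}

theorem edge_ne {v : Fin (n + 2) → Fin n → ℝ} {k : Fin (n + 2)} (hk : 0 < minor v k) :
    (edge fun j => v (k.succAbove j)).det ≠ 0 := by
  rw [← abs_pos, ← abs_minor]
  exact abs_pos.2 hk.ne'

theorem abs_edge {v : Fin (n + 2) → Fin n → ℝ} {k : Fin (n + 2)} (hk : 0 < minor v k) :
    |(edge fun j => v (k.succAbove j)).det| = minor v k := by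
  rw [← abs_minor, abs_of_pos hk]

theorem vol_hull (hn : 1 ≤ n) {v : Fin (n + 2) → Fin n → ℝ} (h : ∃ k, 0 < minor v k)
    {P : ℝ} (hP : P = ∑ k, max (minor v k) 0) :
    (volume (convexHull ℝ (range v))).toReal = P / (n.factorial : ℝ) := by
  have h1 := integral_hull hn h (f := fun _ => 1) continuous_const
    (g := fun _ => 1 / (n.factorial : ℝ)) (by
      intro k hk
      have := vol_simp (edge_ne hk)
      rw [abs_edge hk] at this
      rw [setIntegral_const, smul_eq_mul, mul_one, Measure.real, face, this]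
      ring)
  rw [setIntegral_const, smul_eq_mul, mul_one, Measure.real, ← Finset.sum_mul, ← hP] at h1
  rw [h1]
  ring

theorem int_hull (hn : 1 ≤ n) {v : Fin (n + 2) → Fin n → ℝ} (h : ∃ k, 0 < minor v k)
    {P : ℝ} (hP : P = ∑ k, max (minor v k) 0) (hP0 : 0 < P) (a : Fin n) :
    ∫ x in convexHull ℝ (range v), x a = P / ((n + 1).factorial : ℝ) *
      (∑ k, v k a - ∑ k, max (minor v k) 0 / P * v k a) := by
  have h1 := integral_hull hn h (f := fun x => x a) (by fun_prop)
    (g := fun k => 1 / ((n + 1).factorial : ℝ) * (∑ j, v j a - v k a)) (by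
      intro k hk
      have := int_simp (edge_ne hk) a
      rw [abs_edge hk] at this
      rw [face, this, Fin.sum_univ_succAbove _ k]
      ring)
  rw [h1]
  have e : ∀ k, max (minor v k) 0 * (1 / ((n + 1).factorial : ℝ) * (∑ j, v j a - v k a)) =
      1 / ((n + 1).factorial : ℝ) * (max (minor v k) 0 * ∑ j, v j a - max (minor v k) 0 * v k a) :=
    fun k => by ring
  simp_rw [e]
  rw [← Finset.mul_sum, Finset.sum_sub_distrib, ← Finset.sum_mul, ← hP]
  have e2 : ∑ k, max (minor v k) 0 / P * v k a = (∑ k, max (minor v k) 0 * v k a) / P := by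
    rw [Finset.sum_div]
    exact Finset.sum_congr rfl fun k _ => by ring
  rw [e2]
  field_simp

theorem int2_hull (hn : 1 ≤ n) {v : Fin (n + 2) → Fin n → ℝ} (h : ∃ k, 0 < minor v k)
    {P : ℝ} (hP : P = ∑ k, max (minor v k) 0) (hP0 : 0 < P) (a b : Fin n) :
    ∫ x in convexHull ℝ (range v), x a * x b = P / ((n + 2).factorial : ℝ) *
      (∑ k, v k a * v k b + (∑ k, v k a) * (∑ k, v k b)
        - (∑ k, v k a) * (∑ k, max (minor v k) 0 / P * v k b)
        - (∑ k, max (minor v k) 0 / P * v k a) * (∑ k, v k b)) := by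
  have h1 := integral_hull hn h (f := fun x => x a * x b) (by fun_prop)
    (g := fun k => 1 / ((n + 2).factorial : ℝ) *
      ((∑ j, v j a * v j b + (∑ j, v j a) * (∑ j, v j b)) - (∑ j, v j a) * v k b
        - (∑ j, v j b) * v k a)) (by
      intro k hk
      have := int_simp2 (edge_ne hk) a b
      rw [abs_edge hk] at this
      rw [face, this, Fin.sum_univ_succAbove (fun j => v j a * v j b) k,
        Fin.sum_univ_succAbove (fun j => v j a) k, Fin.sum_univ_succAbove (fun j => v j b) k]
      ring)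
  rw [h1]
  have e : ∀ k, max (minor v k) 0 * (1 / ((n + 2).factorial : ℝ) *
      ((∑ j, v j a * v j b + (∑ j, v j a) * (∑ j, v j b)) - (∑ j, v j a) * v k b
        - (∑ j, v j b) * v k a)) =
      1 / ((n + 2).factorial : ℝ) * (max (minor v k) 0 *
        (∑ j, v j a * v j b + (∑ j, v j a) * (∑ j, v j b))
        - (∑ j, v j a) * (max (minor v k) 0 * v k b)
        - (∑ j, v j b) * (max (minor v k) 0 * v k a)) :=
    fun k => by ring
  simp_rw [e]
  rw [← Finset.mul_sum, Finset.sum_sub_distrib, Finset.sum_sub_distrib, ← Finset.sum_mul, ← hP,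
    ← Finset.mul_sum, ← Finset.mul_sum]
  have e2 : ∀ a, ∑ k, max (minor v k) 0 / P * v k a = (∑ k, max (minor v k) 0 * v k a) / P := by
    intro a
    rw [Finset.sum_div]
    exact Finset.sum_congr rfl fun k _ => by ring
  rw [e2, e2]
  field_simp

theorem cov_hull (hn : 1 ≤ n) {v : Fin (n + 2) → Fin n → ℝ} (h : ∃ k, 0 < minor v k)
    {P : ℝ} (hP : P = ∑ k, max (minor v k) 0) (hP0 : 0 < P) :
    covMatrix (convexHull ℝ (range v)) = (1 / (((n : ℝ) + 1) * ((n : ℝ) + 2))) •
      Matrix.of fun a b => ∑ k, v k a * v k b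
        - (∑ k, max (minor v k) 0 / P * v k a) * (∑ k, max (minor v k) 0 / P * v k b)
        - (∑ k, v k a - ∑ k, max (minor v k) 0 / P * v k a) *
          (∑ k, v k b - ∑ k, max (minor v k) 0 / P * v k b) / ((n : ℝ) + 1) := by
  have hc : IsCompact (convexHull ℝ (range v)) := (Set.finite_range _).isCompact_convexHull ℝ
  have hV : (volume (convexHull ℝ (range v))).toReal ≠ 0 := by
    rw [vol_hull hn h hP]
    positivity
  have hcen : ∀ a, centroid (convexHull ℝ (range v)) a =
      (∑ k, v k a - ∑ k, max (minor v k) 0 / P * v k a) / ((n : ℝ) + 1) := by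
    intro a
    rw [centroid, vol_hull hn h hP, int_hull hn h hP hP0, Nat.factorial_succ]
    push_cast
    field_simp
  ext a b
  rw [cov_eq hc hV, hcen, hcen, vol_hull hn h hP, int2_hull hn h hP hP0, Matrix.smul_apply,
    Matrix.of_apply, Nat.factorial_succ, Nat.factorial_succ, smul_eq_mul]
  push_cast
  generalize ∑ k, v k a * v k b = V
  generalize ∑ k, max (minor v k) 0 / P * v k a = ra
  generalize ∑ k, max (minor v k) 0 / P * v k b = rb
  generalize ∑ k, v k a = sa
  generalize ∑ k, v k b = sb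
  have h1 : ((n : ℝ) + 1 + 1) ≠ 0 := by positivity
  have h2 : ((n : ℝ) + 2) ≠ 0 := by positivity
  have h3 : (n.factorial : ℝ) ≠ 0 := by positivity
  field_simp
  ring

end Vale.Agent.P254.FV
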