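import Vale.Agent.P254.FV.Pyr3

/-!
Direct products of convex bodies.
-/

open MeasureTheory Set Matrix

namespace Vale.Agent.P254.FV

variable {m n : ℕ}

/-- `ℝᵐ × ℝⁿ ≃ ℝᵐ⁺ⁿ` -/
noncomputable def glue (m n : ℕ) : (Fin m → ℝ) × (Fin n → ℝ) ≃ᵐ (Fin (m + n) → ℝ) :=
  (MeasurableEquiv.sumPiEquivProdPi (fun _ : Fin m ⊕ Fin n => ℝ)).symm.trans
    (MeasurableEquiv.piCongrLeft (fun _ : Fin (m + n) => ℝ) finSumFinEquiv)

theorem glue_left (w : (Fin m → ℝ) × (Fin n → ℝ)) (i : Fin m) :
    glue m n w (Fin.castAdd n i) = w.1 i := by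
  have h : Fin.castAdd n i = finSumFinEquiv (Sum.inl i) := by simp
  rw [h]
  simp only [glue, MeasurableEquiv.trans_apply, MeasurableEquiv.coe_piCongrLeft,
    Equiv.piCongrLeft_apply_apply]
  rfl

theorem glue_right (w : (Fin m → ℝ) × (Fin n → ℝ)) (j : Fin n) :
    glue m n w (Fin.natAdd m j) = w.2 j := by
  have h : Fin.natAdd m j = finSumFinEquiv (Sum.inr j) := by simp
  rw [h]
  simp only [glue, MeasurableEquiv.trans_apply, MeasurableEquiv.coe_piCongrLeft,
    Equiv.piCongrLeft_apply_apply]
  rfl

theorem glue_mp (m n : ℕ) : MeasurePreserving (glue m n) :=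
  (volume_measurePreserving_sumPiEquivProdPi_symm (fun _ : Fin m ⊕ Fin n => ℝ)).trans
    (volume_measurePreserving_piCongrLeft (fun _ : Fin (m + n) => ℝ) finSumFinEquiv)

theorem preimage_glue (K : Set (Fin m → ℝ)) (L : Set (Fin n → ℝ)) :
    glue m n ⁻¹' directProd K L = K ×ˢ L := by
  ext w
  simp only [mem_preimage, directProd, mem_ofPred_eq, glue_left, glue_right, mem_prod]

theorem prod_int (K : Set (Fin m → ℝ)) (L : Set (Fin n → ℝ)) {F : (Fin (m + n) → ℝ) → ℝ}
    {f : (Fin m → ℝ) → ℝ} {g : (Fin n → ℝ) → ℝ} (h : ∀ w, F (glue m n w) = f w.1 * g w.2) :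
    ∫ z in directProd K L, F z = (∫ x in K, f x) * ∫ y in L, g y := by
  rw [← (glue_mp m n).setIntegral_preimage_emb (MeasurableEquiv.measurableEmbedding _) F,
    preimage_glue]
  simp_rw [h]
  rw [Measure.volume_eq_prod, setIntegral_prod_mul]

variable {K : Set (Fin m → ℝ)} {L : Set (Fin n → ℝ)}

theorem vol_prod : (volume (directProd K L)).toReal = (volume K).toReal * (volume L).toReal := by
  have h := prod_int K L (F := fun _ => 1) (f := fun _ => 1) (g := fun _ => 1) (fun w => by simp)
  simpa [Measure.real] using h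

theorem isCompact_prod (hK : IsCompact K) (hL : IsCompact L) : IsCompact (directProd K L) := by
  have h : directProd K L = (fun w : (Fin m → ℝ) × (Fin n → ℝ) => Fin.append w.1 w.2) '' (K ×ˢ L) := by
    ext z
    constructor
    · rintro ⟨h1, h2⟩
      refine ⟨(_, _), ⟨h1, h2⟩, ?_⟩
      ext i
      refine Fin.addCases (fun j => ?_) (fun j => ?_) i
      · simp
      · simp
    · rintro ⟨⟨x, y⟩, ⟨hx, hy⟩, rfl⟩
      refine ⟨?_, ?_⟩
      · simpa using hx
      · simpa using hy
  rw [h]
  refine (hK.prod hL).image ?_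
  refine continuous_pi fun i => ?_
  refine Fin.addCases (fun j => ?_) (fun j => ?_) i
  · simp only [Fin.append_left]; fun_prop
  · simp only [Fin.append_right]; fun_prop

theorem convex_prod (hK : Convex ℝ K) (hL : Convex ℝ L) : Convex ℝ (directProd K L) := by
  rintro z ⟨h1, h2⟩ z' ⟨h1', h2'⟩ a b ha hb hab
  exact ⟨hK h1 h1' ha hb hab, hL h2 h2' ha hb hab⟩

theorem body_prod (hK : IsConvexBody K) (hL : IsConvexBody L) : IsConvexBody (directProd K L) := by
  refine body_of_vol (convex_prod hK.1 hL.1) (isCompact_prod hK.2.1 hL.2.1) ?_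
  rw [vol_prod]
  exact mul_ne_zero (vol_pos hK).ne' (vol_pos hL).ne'

theorem cov_prod (hK : IsConvexBody K) (hL : IsConvexBody L) :
    covMatrix (directProd K L) = (fromBlocks (covMatrix K) 0 0 (covMatrix L)).submatrix
      finSumFinEquiv.symm finSumFinEquiv.symm := by
  have hV := (vol_pos hK).ne'
  have hW := (vol_pos hL).ne'
  have hVW : (volume (directProd K L)).toReal ≠ 0 := by
    rw [vol_prod]
    exact mul_ne_zero hV hW
  have hc := isCompact_prod hK.2.1 hL.2.1
  have hcl : ∀ i : Fin m, centroid (directProd K L) (Fin.castAdd n i) = centroid K i := by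
    intro i
    have h := prod_int K L (F := fun z => z (Fin.castAdd n i)) (f := fun x => x i)
      (g := fun _ => 1) (fun w => by simp [glue_left])
    rw [centroid, vol_prod, h, setIntegral_const, smul_eq_mul, mul_one, Measure.real, centroid]
    field_simp
  have hcr : ∀ j : Fin n, centroid (directProd K L) (Fin.natAdd m j) = centroid L j := by
    intro j
    have h := prod_int K L (F := fun z => z (Fin.natAdd m j)) (f := fun _ => 1)
      (g := fun y => y j) (fun w => by simp [glue_right])
    rw [centroid, vol_prod, h, setIntegral_const, smul_eq_mul, mul_one, Measure.real, centroid]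
    field_simp
  have h12 : ∀ (i : Fin m) (j : Fin n),
      covMatrix (directProd K L) (Fin.castAdd n i) (Fin.natAdd m j) = 0 := by
    intro i j
    have h := prod_int K L (F := fun z => z (Fin.castAdd n i) * z (Fin.natAdd m j))
      (f := fun x => x i) (g := fun y => y j) (fun w => by simp [glue_left, glue_right])
    rw [cov_eq hc hVW, hcl, hcr, vol_prod, h, centroid, centroid]
    field_simp
    ring
  ext i j
  refine Fin.addCases (fun i' => ?_) (fun i' => ?_) i
  · refine Fin.addCases (fun j' => ?_) (fun j' => ?_) j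
    · have h := prod_int K L (F := fun z => z (Fin.castAdd n i') * z (Fin.castAdd n j'))
        (f := fun x => x i' * x j') (g := fun _ => 1) (fun w => by simp [glue_left])
      rw [cov_eq hc hVW, hcl, hcl, vol_prod, h, setIntegral_const, smul_eq_mul, mul_one,
        Measure.real]
      simp only [submatrix_apply, finSumFinEquiv_symm_apply_castAdd, fromBlocks_apply₁₁]
      rw [cov_eq hK.2.1 hV]
      field_simp
    · rw [h12]
      simp
  · refine Fin.addCases (fun j' => ?_) (fun j' => ?_) j
    · rw [covMatrix_symm, h12]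
      simp
    · have h := prod_int K L (F := fun z => z (Fin.natAdd m i') * z (Fin.natAdd m j'))
        (f := fun _ => 1) (g := fun y => y i' * y j') (fun w => by simp [glue_right])
      rw [cov_eq hc hVW, hcr, hcr, vol_prod, h, setIntegral_const, smul_eq_mul, mul_one,
        Measure.real]
      simp only [submatrix_apply, finSumFinEquiv_symm_apply_natAdd, fromBlocks_apply₂₂]
      rw [cov_eq hL.2.1 hW]
      field_simp

theorem Dn_prod (hK : IsConvexBody K) (hL : IsConvexBody L) :
    Dn (directProd K L) = Dn K * Dn L := by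
  unfold Dn
  rw [cov_prod hK hL, det_submatrix_equiv_self, det_fromBlocks_zero₁₂, vol_prod]
  have hV := (vol_pos hK).ne'
  have hW := (vol_pos hL).ne'
  field_simp

end Vale.Agent.P254.FV
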