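import Vale.Agent.P254.FV.Main

/-!
Integrals over pyramids.
-/

open MeasureTheory Set Matrix
open scoped Pointwise

namespace Vale.Agent.P254.FV

variable {p : ℕ}

/-- the pyramid over `K ⊆ ℝᵖ` in `ℝᵖ⁺¹`: base `{0} × K`, apex `(1, 0)` -/
def pyrS (K : Set (Fin p → ℝ)) : Set (Fin (p + 1) → ℝ) :=
  {z | 0 ≤ z 0 ∧ z 0 ≤ 1 ∧ ∃ x ∈ K, ∀ i, z (Fin.succ i) = (1 - z 0) * x i}

/-- the same set in `ℝ × ℝᵖ` -/
def pyrP (K : Set (Fin p → ℝ)) : Set (ℝ × (Fin p → ℝ)) :=
  (fun w : ℝ × (Fin p → ℝ) => (w.1, (1 - w.1) • w.2)) '' (Icc (0 : ℝ) 1 ×ˢ K)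

theorem mem_pyrP {K : Set (Fin p → ℝ)} {w : ℝ × (Fin p → ℝ)} :
    w ∈ pyrP K ↔ w.1 ∈ Icc (0 : ℝ) 1 ∧ w.2 ∈ (1 - w.1) • K := by
  constructor
  · rintro ⟨⟨t, x⟩, ⟨ht, hx⟩, rfl⟩
    exact ⟨ht, smul_mem_smul_set hx⟩
  · rintro ⟨ht, x, hx, hxw⟩
    refine ⟨(w.1, x), ⟨ht, hx⟩, ?_⟩
    ext1
    · rfl
    · exact hxw

theorem isCompact_pyrP {K : Set (Fin p → ℝ)} (hK : IsCompact K) : IsCompact (pyrP K) :=
  (isCompact_Icc.prod hK).image (by fun_prop)

theorem preimage_pyrS (K : Set (Fin p → ℝ)) :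
    (MeasurableEquiv.piFinSuccAbove (fun _ : Fin (p + 1) => ℝ) 0).symm ⁻¹' pyrS K = pyrP K := by
  ext ⟨t, x⟩
  rw [mem_pyrP, mem_preimage]
  have h0 : (MeasurableEquiv.piFinSuccAbove (fun _ : Fin (p + 1) => ℝ) 0).symm (t, x) 0 = t := rfl
  have h1 : ∀ i : Fin p,
      (MeasurableEquiv.piFinSuccAbove (fun _ : Fin (p + 1) => ℝ) 0).symm (t, x) i.succ = x i :=
    fun i => rfl
  simp only [pyrS, mem_ofPred_eq, h0, h1, mem_Icc]
  constructor
  · rintro ⟨h2, h3, y, hy, h4⟩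
    exact ⟨⟨h2, h3⟩, y, hy, by ext i; simp [h4 i]⟩
  · rintro ⟨⟨h2, h3⟩, y, hy, h4⟩
    exact ⟨h2, h3, y, hy, fun i => by rw [← h4]; rfl⟩

theorem isCompact_pyrS {K : Set (Fin p → ℝ)} (hK : IsCompact K) : IsCompact (pyrS K) := by
  have h : pyrS K = (fun w : ℝ × (Fin p → ℝ) => (Fin.cons w.1 w.2 : Fin (p + 1) → ℝ)) '' pyrP K := by
    ext z
    constructor
    · rintro ⟨h1, h2, x, hx, h3⟩
      refine ⟨(z 0, Fin.tail z), mem_pyrP.2 ⟨⟨h1, h2⟩, x, hx, ?_⟩, ?_⟩
      · ext i; simp [Fin.tail, h3 i]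
      · simp
    · rintro ⟨w, hw, rfl⟩
      obtain ⟨⟨h1, h2⟩, x, hx, h3⟩ := mem_pyrP.1 hw
      refine ⟨h1, h2, x, hx, fun i => ?_⟩
      simp only [Fin.cons_succ, Fin.cons_zero]
      rw [← h3]
      rfl
  rw [h]
  refine (isCompact_pyrP hK).image ?_
  refine continuous_pi fun i => ?_
  refine Fin.cases ?_ (fun j => ?_) i
  · simp only [Fin.cons_zero]; fun_prop
  · simp only [Fin.cons_succ]; fun_prop

/-- **Integration of homogeneous functions over a pyramid.** -/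
theorem pyr_int {K : Set (Fin p → ℝ)} (hK : IsCompact K) {F : (Fin p → ℝ) → ℝ} (hF : Continuous F)
    (a k : ℕ) (hom : ∀ (r : ℝ) (x : Fin p → ℝ), F (r • x) = r ^ k * F x) :
    ∫ z in pyrS K, z 0 ^ a * F (Fin.tail z) =
      (∫ t in (0 : ℝ)..1, t ^ a * (1 - t) ^ (p + k)) * ∫ x in K, F x := by
  have hmp := (volume_preserving_piFinSuccAbove (fun _ : Fin (p + 1) => ℝ) 0).symm
  rw [← hmp.setIntegral_preimage_emb
    (MeasurableEquiv.measurableEmbedding _) (fun z => z 0 ^ a * F (Fin.tail z)) (pyrS K),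
    preimage_pyrS]
  have hG : ∀ w : ℝ × (Fin p → ℝ),
      (fun z : Fin (p + 1) → ℝ => z 0 ^ a * F (Fin.tail z))
        ((MeasurableEquiv.piFinSuccAbove (fun _ : Fin (p + 1) => ℝ) 0).symm w) =
      w.1 ^ a * F w.2 := fun w => rfl
  simp only [hG]
  have hm : MeasurableSet (pyrP K) := (isCompact_pyrP hK).measurableSet
  rw [← integral_indicator hm, Measure.volume_eq_prod, integral_prod]
  · have h1 : ∀ᵐ t : ℝ, t ≠ 1 := by
      have : volume ({1} : Set ℝ) = 0 := measure_singleton 1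
      exact compl_mem_ae_iff.2 this
    have h2 : ∀ t : ℝ, t ≠ 1 →
        ∫ x : Fin p → ℝ, (pyrP K).indicator (fun w => w.1 ^ a * F w.2) (t, x) =
          (Ico (0 : ℝ) 1).indicator (fun t => t ^ a * (1 - t) ^ (p + k) * ∫ x in K, F x) t := by
      intro t ht
      by_cases h3 : t ∈ Ico (0 : ℝ) 1
      · rw [indicator_of_mem h3]
        have h4 : ∀ x : Fin p → ℝ, (pyrP K).indicator (fun w => w.1 ^ a * F w.2) (t, x) =
            ((1 - t) • K).indicator (fun x => t ^ a * F x) x := by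
          intro x
          by_cases h5 : x ∈ (1 - t) • K
          · rw [indicator_of_mem h5, indicator_of_mem (mem_pyrP.2 ⟨⟨h3.1, h3.2.le⟩, h5⟩)]
          · rw [indicator_of_notMem h5, indicator_of_notMem fun h => h5 (mem_pyrP.1 h).2]
        simp_rw [h4]
        have h6 : MeasurableSet ((1 - t) • K) := (hK.smul (1 - t)).measurableSet
        rw [integral_indicator h6, integral_const_mul]
        have h7 : 0 < 1 - t := by linarith [h3.2]
        have h8 := Measure.setIntegral_comp_smul_of_pos (volume : Measure (Fin p → ℝ)) F K h7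
        rw [Module.finrank_fin_fun] at h8
        simp_rw [hom] at h8
        rw [integral_const_mul, smul_eq_mul] at h8
        have h9 : ∫ x in (1 - t) • K, F x = (1 - t) ^ (p + k) * ∫ x in K, F x := by
          have h10 : ((1 - t) ^ p) ≠ 0 := (pow_pos h7 p).ne'
          rw [pow_add, mul_assoc, h8]
          field_simp
        rw [h9]
        ring
      · rw [indicator_of_notMem h3]
        have h4 : ∀ x : Fin p → ℝ, (pyrP K).indicator (fun w => w.1 ^ a * F w.2) (t, x) = 0 := by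
          intro x
          refine indicator_of_notMem (fun h => h3 ?_) _
          have h5 := (mem_pyrP.1 h).1
          exact ⟨h5.1, lt_of_le_of_ne h5.2 ht⟩
        simp_rw [h4]
        simp
    rw [integral_congr_ae (h1.mono h2), integral_indicator measurableSet_Ico,
      integral_Ico_eq_integral_Ioo, ← integral_Ioc_eq_integral_Ioo,
      ← intervalIntegral.integral_of_le zero_le_one, intervalIntegral.integral_mul_const]
  · rw [← Measure.volume_eq_prod]
    exact (integrable_indicator_iff hm).2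
      ((by fun_prop : Continuous fun w : ℝ × (Fin p → ℝ) => w.1 ^ a * F w.2).continuousOn.integrableOn_compact
        (isCompact_pyrP hK))

end Vale.Agent.P254.FV
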