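import Vale.Agent.P254.FV.Pyr

/-!
The isotropic constant of a pyramid.
-/

open MeasureTheory Set Matrix
open scoped Pointwise

namespace Vale.Agent.P254.FV

variable {p : ℕ}

theorem beta0 (b : ℕ) : ∫ t in (0 : ℝ)..1, t ^ 0 * (1 - t) ^ b = 1 / ((b : ℝ) + 1) := by
  have h := intervalIntegral.integral_comp_sub_left (a := 0) (b := 1) (fun s : ℝ => s ^ b) 1
  simp only [sub_self, sub_zero] at h
  simp only [pow_zero, one_mul]
  rw [h, integral_pow]
  simp

theorem beta1 (b : ℕ) :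
    ∫ t in (0 : ℝ)..1, t ^ 1 * (1 - t) ^ b = 1 / (((b : ℝ) + 1) * ((b : ℝ) + 2)) := by
  have h := intervalIntegral.integral_comp_sub_left (a := 0) (b := 1)
    (fun s : ℝ => (1 - s) ^ 1 * s ^ b) 1
  simp only [sub_self, sub_zero, sub_sub_cancel] at h
  rw [h]
  have e : ∀ s : ℝ, (1 - s) ^ 1 * s ^ b = s ^ b - s ^ (b + 1) := fun s => by ring
  simp_rw [e]
  rw [intervalIntegral.integral_sub (Continuous.intervalIntegrable (by fun_prop) _ _)
    (Continuous.intervalIntegrable (by fun_prop) _ _), integral_pow, integral_pow]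
  push_cast
  have : ((b : ℝ) + 1) ≠ 0 := by positivity
  have : ((b : ℝ) + 1 + 1) ≠ 0 := by positivity
  have : ((b : ℝ) + 2) ≠ 0 := by positivity
  simp
  field_simp
  ring

theorem beta2 (b : ℕ) : ∫ t in (0 : ℝ)..1, t ^ 2 * (1 - t) ^ b =
    2 / (((b : ℝ) + 1) * ((b : ℝ) + 2) * ((b : ℝ) + 3)) := by
  have h := intervalIntegral.integral_comp_sub_left (a := 0) (b := 1)
    (fun s : ℝ => (1 - s) ^ 2 * s ^ b) 1
  simp only [sub_self, sub_zero, sub_sub_cancel] at h
  rw [h]
  have e : ∀ s : ℝ, (1 - s) ^ 2 * s ^ b = s ^ b - 2 * s ^ (b + 1) + s ^ (b + 2) :=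
    fun s => by ring
  simp_rw [e]
  rw [intervalIntegral.integral_add (Continuous.intervalIntegrable (by fun_prop) _ _)
    (Continuous.intervalIntegrable (by fun_prop) _ _),
    intervalIntegral.integral_sub (Continuous.intervalIntegrable (by fun_prop) _ _)
    (Continuous.intervalIntegrable (by fun_prop) _ _), intervalIntegral.integral_const_mul,
    integral_pow, integral_pow, integral_pow]
  push_cast
  have : ((b : ℝ) + 1) ≠ 0 := by positivity
  have : ((b : ℝ) + 1 + 1) ≠ 0 := by positivity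
  have : ((b : ℝ) + 2 + 1) ≠ 0 := by positivity
  have : ((b : ℝ) + 2) ≠ 0 := by positivity
  have : ((b : ℝ) + 3) ≠ 0 := by positivity
  simp
  field_simp
  ring

section mom

variable {K : Set (Fin p → ℝ)}

theorem vol_pyr (hK : IsCompact K) :
    (volume (pyrS K)).toReal = (volume K).toReal / ((p : ℝ) + 1) := by
  have h := pyr_int hK (F := fun _ => 1) continuous_const 0 0 (fun r x => by simp)
  rw [beta0] at h
  simp only [pow_zero, mul_one, setIntegral_const, smul_eq_mul, Measure.real, add_zero] at h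
  rw [h]
  ring

theorem int_pyr_0 (hK : IsCompact K) : ∫ z in pyrS K, z 0 =
    (volume K).toReal / (((p : ℝ) + 1) * ((p : ℝ) + 2)) := by
  have h := pyr_int hK (F := fun _ => 1) continuous_const 1 0 (fun r x => by simp)
  rw [beta1] at h
  simp only [pow_one, mul_one, setIntegral_const, smul_eq_mul, Measure.real, add_zero] at h
  rw [h]
  ring

theorem int_pyr_00 (hK : IsCompact K) : ∫ z in pyrS K, z 0 * z 0 =
    2 * (volume K).toReal / (((p : ℝ) + 1) * ((p : ℝ) + 2) * ((p : ℝ) + 3)) := by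
  have h := pyr_int hK (F := fun _ => 1) continuous_const 2 0 (fun r x => by simp)
  rw [beta2] at h
  simp only [mul_one, setIntegral_const, smul_eq_mul, Measure.real, add_zero] at h
  simp_rw [← sq]
  rw [h]
  ring

theorem int_pyr_s (hK : IsCompact K) (i : Fin p) : ∫ z in pyrS K, z i.succ =
    (∫ x in K, x i) / ((p : ℝ) + 2) := by
  have h := pyr_int hK (F := fun x => x i) (by fun_prop) 0 1 (fun r x => by simp)
  rw [beta0] at h
  simp only [pow_zero, one_mul, Fin.tail] at h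
  rw [h]
  push_cast
  have : ((p : ℝ) + 2) ≠ 0 := by positivity
  have : ((p : ℝ) + 1 + 1) ≠ 0 := by positivity
  field_simp
  ring

theorem int_pyr_0s (hK : IsCompact K) (i : Fin p) : ∫ z in pyrS K, z 0 * z i.succ =
    (∫ x in K, x i) / (((p : ℝ) + 2) * ((p : ℝ) + 3)) := by
  have h := pyr_int hK (F := fun x => x i) (by fun_prop) 1 1 (fun r x => by simp)
  rw [beta1] at h
  simp only [pow_one, Fin.tail] at h
  rw [h]
  push_cast
  have : ((p : ℝ) + 2) ≠ 0 := by positivity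
  have : ((p : ℝ) + 3) ≠ 0 := by positivity
  have : ((p : ℝ) + 1 + 1) ≠ 0 := by positivity
  have : ((p : ℝ) + 1 + 2) ≠ 0 := by positivity
  field_simp
  ring

theorem int_pyr_ss (hK : IsCompact K) (i j : Fin p) : ∫ z in pyrS K, z i.succ * z j.succ =
    (∫ x in K, x i * x j) / ((p : ℝ) + 3) := by
  have h := pyr_int hK (F := fun x => x i * x j) (by fun_prop) 0 2 (fun r x => by simp; ring)
  rw [beta0] at h
  simp only [pow_zero, one_mul, Fin.tail] at h
  rw [h]
  push_cast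
  have : ((p : ℝ) + 3) ≠ 0 := by positivity
  have : ((p : ℝ) + 2 + 1) ≠ 0 := by positivity
  field_simp
  ring

theorem cov_pyr (hK : IsCompact K) (hV : (volume K).toReal ≠ 0) :
    covMatrix (pyrS K) = bord (((p : ℝ) + 1) / (((p : ℝ) + 2) ^ 2 * ((p : ℝ) + 3)))
      (fun i => -(((p : ℝ) + 1) / (((p : ℝ) + 2) ^ 2 * ((p : ℝ) + 3))) * centroid K i)
      (fun i => -(((p : ℝ) + 1) / (((p : ℝ) + 2) ^ 2 * ((p : ℝ) + 3))) * centroid K i)
      (Matrix.of fun i j => ((p : ℝ) + 1) / ((p : ℝ) + 3) * covMatrix K i j +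
        ((p : ℝ) + 1) / (((p : ℝ) + 2) ^ 2 * ((p : ℝ) + 3)) * (centroid K i * centroid K j)) := by
  have h1 : ((p : ℝ) + 1) ≠ 0 := by positivity
  have h2 : ((p : ℝ) + 2) ≠ 0 := by positivity
  have h3 : ((p : ℝ) + 3) ≠ 0 := by positivity
  have hV' : (volume (pyrS K)).toReal ≠ 0 := by
    rw [vol_pyr hK]
    exact div_ne_zero hV h1
  have hc0 : centroid (pyrS K) 0 = 1 / ((p : ℝ) + 2) := by
    rw [centroid, vol_pyr hK, int_pyr_0 hK]
    field_simp
  have hcs : ∀ i : Fin p, centroid (pyrS K) i.succ =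
      ((p : ℝ) + 1) / ((p : ℝ) + 2) * centroid K i := by
    intro i
    rw [centroid, vol_pyr hK, int_pyr_s hK, centroid]
    field_simp
  have hcc : IsCompact (pyrS K) := isCompact_pyrS hK
  have e0s : ∀ i : Fin p, covMatrix (pyrS K) 0 i.succ =
      -(((p : ℝ) + 1) / (((p : ℝ) + 2) ^ 2 * ((p : ℝ) + 3))) * centroid K i := by
    intro i
    rw [cov_eq hcc hV', hc0, hcs, vol_pyr hK, int_pyr_0s hK, centroid]
    field_simp
    ring
  ext i j
  refine Fin.cases ?_ (fun k => ?_) i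
  · refine Fin.cases ?_ (fun l => ?_) j
    · rw [cov_eq hcc hV', hc0, vol_pyr hK, int_pyr_00 hK]
      simp only [bord, Matrix.of_apply, Fin.cons_zero]
      field_simp
      ring
    · rw [e0s]
      simp [bord]
  · refine Fin.cases ?_ (fun l => ?_) j
    · rw [covMatrix_symm, e0s]
      simp [bord]
    · rw [cov_eq hcc hV', hcs, hcs, vol_pyr hK, int_pyr_ss hK]
      simp only [bord, Matrix.of_apply, Fin.cons_succ]
      rw [cov_eq hK hV]
      field_simp
      ring

/-- the normalised determinant -/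
noncomputable def Dn {n : ℕ} (K : Set (Fin n → ℝ)) : ℝ :=
  (covMatrix K).det / (volume K).toReal ^ 2

theorem Dn_pyr (hK : IsCompact K) (hV : (volume K).toReal ≠ 0) :
    Dn (pyrS K) * simpC p = Dn K * simpC (p + 1) := by
  have h1 : ((p : ℝ) + 1) ≠ 0 := by positivity
  have h2 : ((p : ℝ) + 2) ≠ 0 := by positivity
  have h3 : ((p : ℝ) + 3) ≠ 0 := by positivity
  have hv : ((p : ℝ) + 1) / (((p : ℝ) + 2) ^ 2 * ((p : ℝ) + 3)) ≠ 0 := by positivity
  unfold Dn
  rw [cov_pyr hK hV, det_bord hv, vol_pyr hK]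
  have e : (Matrix.of fun i j => (Matrix.of fun i j =>
      ((p : ℝ) + 1) / ((p : ℝ) + 3) * covMatrix K i j +
        ((p : ℝ) + 1) / (((p : ℝ) + 2) ^ 2 * ((p : ℝ) + 3)) * (centroid K i * centroid K j)) i j -
      -(((p : ℝ) + 1) / (((p : ℝ) + 2) ^ 2 * ((p : ℝ) + 3))) * centroid K i *
        (-(((p : ℝ) + 1) / (((p : ℝ) + 2) ^ 2 * ((p : ℝ) + 3))) * centroid K j) /
          (((p : ℝ) + 1) / (((p : ℝ) + 2) ^ 2 * ((p : ℝ) + 3)))) =
      (((p : ℝ) + 1) / ((p : ℝ) + 3)) • covMatrix K := by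
    ext i j
    simp only [Matrix.of_apply, Matrix.smul_apply, smul_eq_mul]
    field_simp
    ring
  rw [e, det_smul, Fintype.card_fin]
  unfold simpC
  rw [Nat.factorial_succ]
  push_cast
  have h4 : ((p : ℝ) + 1 + 1) = (p : ℝ) + 2 := by ring
  have h5 : ((p : ℝ) + 1 + 2) = (p : ℝ) + 3 := by ring
  rw [h4, h5, div_pow, mul_pow ((p : ℝ) + 1) ((p : ℝ) + 2) p,
    mul_pow ((p : ℝ) + 2) ((p : ℝ) + 3) (p + 1), pow_succ ((p : ℝ) + 2) p,
    pow_succ ((p : ℝ) + 3) p]
  field_simp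

end mom

end Vale.Agent.P254.FV
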