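import Vale.Agent.P254.FV.Pyr2
import Vale.Agent.P254.FV.ClsDefs

/-!
Pyramids over convex bodies.
-/

open MeasureTheory Set Matrix
open scoped Pointwise

namespace Vale.Agent.P254.FV

variable {p : ℕ}

theorem convex_pyrS {K : Set (Fin p → ℝ)} (hK : Convex ℝ K) : Convex ℝ (pyrS K) := by
  rintro z ⟨h1, h2, x, hx, h3⟩ z' ⟨h1', h2', x', hx', h3'⟩ a b ha hb hab
  have e0 : (a • z + b • z') 0 = a * z 0 + b * z' 0 := rfl
  have hs : 1 - (a * z 0 + b * z' 0) = a * (1 - z 0) + b * (1 - z' 0) := by
    linear_combination (-1 : ℝ) * hab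
  have hp1 : 0 ≤ a * (1 - z 0) := mul_nonneg ha (by linarith)
  have hp2 : 0 ≤ b * (1 - z' 0) := mul_nonneg hb (by linarith)
  have hq1 : 0 ≤ a * z 0 := mul_nonneg ha h1
  have hq2 : 0 ≤ b * z' 0 := mul_nonneg hb h1'
  refine ⟨by rw [e0]; linarith, by rw [e0]; linarith, ?_⟩
  rw [e0, hs]
  rcases eq_or_lt_of_le (add_nonneg hp1 hp2) with h | h
  · have h4 : a * (1 - z 0) = 0 := by linarith
    have h5 : b * (1 - z' 0) = 0 := by linarith
    refine ⟨x, hx, fun i => ?_⟩
    have e : (a • z + b • z') i.succ = a * z i.succ + b * z' i.succ := rfl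
    rw [e, h3, h3', ← mul_assoc, ← mul_assoc, h4, h5]
    ring
  · set s := a * (1 - z 0) + b * (1 - z' 0) with hsdef
    have h6 : (a * (1 - z 0) / s) • x + (b * (1 - z' 0) / s) • x' ∈ K :=
      hK hx hx' (div_nonneg hp1 h.le) (div_nonneg hp2 h.le) (by
        rw [← add_div, ← hsdef, div_self h.ne'])
    refine ⟨_, h6, fun i => ?_⟩
    have e : (a • z + b • z') i.succ = a * z i.succ + b * z' i.succ := rfl
    rw [e, h3, h3']
    simp only [Pi.add_apply, Pi.smul_apply, smul_eq_mul]
    field_simp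

theorem pyramid_eq {K : Set (Fin p → ℝ)} (hK : Convex ℝ K) (hne : K.Nonempty) :
    pyramid K = pyrS K := by
  obtain ⟨y, hy⟩ := hne
  apply Subset.antisymm
  · refine convexHull_min ?_ (convex_pyrS hK)
    rintro z (rfl | ⟨x, hx, rfl⟩)
    · exact ⟨by simp, by simp, y, hy, fun i => by simp⟩
    · exact ⟨by simp, by simp, x, hx, fun i => by simp⟩
  · rintro z ⟨h1, h2, x, hx, h3⟩
    have h4 := (convex_convexHull ℝ (insert (Fin.cons 1 0) ((fun x => Fin.cons 0 x) '' K) :
      Set (Fin (p + 1) → ℝ))) (subset_convexHull ℝ _ (mem_insert _ _))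
      (subset_convexHull ℝ _ (mem_insert_of_mem _ (mem_image_of_mem (fun x => Fin.cons 0 x) hx)))
      h1 (sub_nonneg.2 h2) (add_sub_cancel _ _)
    have e : z 0 • (Fin.cons 1 0 : Fin (p + 1) → ℝ) + (1 - z 0) • (Fin.cons 0 x : Fin (p + 1) → ℝ) =
        z := by
      ext i
      refine Fin.cases ?_ (fun j => ?_) i
      · simp
      · simp [h3 j]
    rw [e] at h4
    exact h4

theorem body_of_vol {n : ℕ} {K : Set (Fin n → ℝ)} (hc : Convex ℝ K) (hK : IsCompact K)
    (hV : (volume K).toReal ≠ 0) : IsConvexBody K := by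
  refine ⟨hc, hK, ?_⟩
  by_contra hne
  rw [not_nonempty_iff_eq_empty] at hne
  have : volume K = 0 := by
    have h8 := hc.addHaar_frontier (volume : Measure (Fin n → ℝ))
    have h9 : K ⊆ frontier K := by
      rw [hK.isClosed.frontier_eq, hne, sdiff_empty]
    exact measure_mono_null h9 h8
  rw [this] at hV
  simp at hV

theorem vol_pos {n : ℕ} {K : Set (Fin n → ℝ)} (hK : IsConvexBody K) : 0 < (volume K).toReal := by
  have h1 : 0 < volume K := lt_of_lt_of_le (isOpen_interior.measure_pos volume hK.2.2)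
    (measure_mono interior_subset)
  exact ENNReal.toReal_pos h1.ne' hK.2.1.measure_lt_top.ne

theorem body_pyramid {K : Set (Fin p → ℝ)} (hK : IsConvexBody K) : IsConvexBody (pyramid K) := by
  have hne : K.Nonempty := hK.2.2.mono interior_subset
  rw [pyramid_eq hK.1 hne]
  refine body_of_vol (convex_pyrS hK.1) (isCompact_pyrS hK.2.1) ?_
  rw [vol_pyr hK.2.1]
  have := vol_pos hK
  positivity

theorem edge_ne_of_indep {n : ℕ} {v : Fin (n + 1) → (Fin n → ℝ)} (hv : AffineIndependent ℝ v) :
    (edge v).det ≠ 0 := by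
  rw [affineIndependent_iff_linearIndependent_vsub ℝ _ (0 : Fin (n + 1))] at hv
  have h1 : LinearIndependent ℝ (fun k : Fin n => v k.succ - v 0) := by
    have := hv.comp (fun k : Fin n => (⟨k.succ, Fin.succ_ne_zero k⟩ : {x : Fin (n + 1) // x ≠ 0}))
      (by
        intro a b hab
        simpa using hab)
    exact this
  have h2 : LinearIndependent ℝ ((edge v)ᵀ).row := by
    have : ((edge v)ᵀ).row = fun k : Fin n => v k.succ - v 0 := by
      ext k j; rfl
    rw [this]
    exact h1
  have h3 := Matrix.linearIndependent_rows_iff_isUnit.mp h2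
  rw [Matrix.isUnit_iff_isUnit_det, det_transpose] at h3
  exact h3.ne_zero

theorem isSimplex_of_edge {n : ℕ} {w : Fin (n + 1) → (Fin n → ℝ)} (hw : (edge w).det ≠ 0) :
    IsSimplex (convexHull ℝ (range w)) := by
  rw [← image_edge]
  exact isSimplex_image hw _

theorem isSimplex_pyramid {K : Set (Fin p → ℝ)} (hK : IsSimplex K) : IsSimplex (pyramid K) := by
  obtain ⟨v, hv, rfl⟩ := hK
  have hd := edge_ne_of_indep hv
  let w : Fin (p + 2) → (Fin (p + 1) → ℝ) :=
    Fin.cons (Fin.cons 1 0) (fun j => Fin.cons 0 (v j))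
  have hr : range w = insert (Fin.cons 1 0) ((fun x => Fin.cons 0 x) '' range v) := by
    ext z
    constructor
    · rintro ⟨i, rfl⟩
      refine Fin.cases ?_ (fun j => ?_) i
      · exact mem_insert _ _
      · exact mem_insert_of_mem _ ⟨v j, mem_range_self j, rfl⟩
    · rintro (rfl | ⟨_, ⟨j, rfl⟩, rfl⟩)
      · exact ⟨0, rfl⟩
      · exact ⟨j.succ, rfl⟩
  have hne : (convexHull ℝ (range v)).Nonempty := ⟨v 0, subset_convexHull ℝ _ (mem_range_self 0)⟩
  have hw : pyramid (convexHull ℝ (range v)) = convexHull ℝ (range w) := by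
    rw [hr]
    apply Subset.antisymm
    · refine convexHull_min ?_ (convex_convexHull ℝ _)
      rintro z (rfl | ⟨x, hx, rfl⟩)
      · exact subset_convexHull ℝ _ (mem_insert _ _)
      · have hlin : (fun x : Fin p → ℝ => (Fin.cons 0 x : Fin (p + 1) → ℝ)) '' convexHull ℝ (range v)
            = convexHull ℝ ((fun x : Fin p → ℝ => (Fin.cons 0 x : Fin (p + 1) → ℝ)) '' range v) := by
          let L : (Fin p → ℝ) →ₗ[ℝ] (Fin (p + 1) → ℝ) :=
            { toFun := fun x => Fin.cons 0 x
              map_add' := fun x y => by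
                ext i; refine Fin.cases ?_ (fun j => ?_) i <;> simp
              map_smul' := fun r x => by
                ext i; refine Fin.cases ?_ (fun j => ?_) i <;> simp }
          exact L.image_convexHull (range v)
        have h5 : (Fin.cons 0 x : Fin (p + 1) → ℝ) ∈
            convexHull ℝ ((fun x : Fin p → ℝ => (Fin.cons 0 x : Fin (p + 1) → ℝ)) '' range v) := by
          rw [← hlin]
          exact mem_image_of_mem _ hx
        exact convexHull_mono (subset_insert _ _) h5
    · exact convexHull_mono (insert_subset_insert (image_mono (subset_convexHull ℝ _)))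
  rw [hw]
  refine isSimplex_of_edge ?_
  have he : edge w = Matrix.of fun i j =>
      (Fin.cons (-1) (fun _ => 1) : Fin (p + 1) → ℝ) i * homM v i j := by
    ext i j
    refine Fin.cases ?_ (fun k => ?_) i
    · simp [edge, w, homM, hom]
    · simp [edge, w, homM, hom]
  rw [he, Matrix.det_mul_column, det_homM]
  refine mul_ne_zero ?_ hd
  rw [Fin.prod_univ_succ]
  simp

end Vale.Agent.P254.FV
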