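import Vale.Agent.P254.FV.Prod

/-!
Integration over free sums.
-/

open MeasureTheory Set Matrix
open scoped Pointwise

namespace Vale.Agent.P254.FV

theorem beta_rec (a b : ℕ) :
    ((a : ℝ) + 1) * ∫ t in (0 : ℝ)..1, (1 - t) ^ a * t ^ (b + 1) =
      ((b : ℝ) + 1) * ∫ t in (0 : ℝ)..1, (1 - t) ^ (a + 1) * t ^ b := by
  have h : ∀ t ∈ uIcc (0 : ℝ) 1, HasDerivAt (fun t : ℝ => (1 - t) ^ (a + 1) * t ^ (b + 1))
      (((b : ℝ) + 1) * ((1 - t) ^ (a + 1) * t ^ b) - ((a : ℝ) + 1) * ((1 - t) ^ a * t ^ (b + 1))) t := by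
    intro t _
    have h2 : HasDerivAt (fun t : ℝ => 1 - t) (-1) t := by
      simpa using (hasDerivAt_id t).const_sub 1
    have h1 := h2.fun_pow (a + 1)
    have h3 : HasDerivAt (fun t : ℝ => t ^ (b + 1)) (((b + 1 : ℕ) : ℝ) * t ^ b) t := by
      simpa using hasDerivAt_pow (b + 1) t
    have h4 := h1.fun_mul h3
    refine h4.congr_deriv ?_
    push_cast
    ring
  have h5 := intervalIntegral.integral_eq_sub_of_hasDerivAt h
    (Continuous.intervalIntegrable (by fun_prop) _ _)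
  rw [intervalIntegral.integral_sub (Continuous.intervalIntegrable (by fun_prop) _ _)
    (Continuous.intervalIntegrable (by fun_prop) _ _), intervalIntegral.integral_const_mul,
    intervalIntegral.integral_const_mul] at h5
  simp at h5
  linarith

theorem beta_eq (b : ℕ) : ∀ a : ℕ, ∫ t in (0 : ℝ)..1, (1 - t) ^ a * t ^ b =
    (a.factorial : ℝ) * b.factorial / ((a + b + 1).factorial : ℝ) := by
  induction b with
  | zero =>
    intro a
    have h := beta0 a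
    simp only [pow_zero, one_mul] at h
    simp only [pow_zero, mul_one, Nat.factorial_zero, Nat.cast_one, add_zero]
    rw [h, Nat.factorial_succ]
    push_cast
    have : (a.factorial : ℝ) ≠ 0 := by positivity
    field_simp
  | succ b ih =>
    intro a
    have h := beta_rec a b
    rw [ih (a + 1)] at h
    have ha : ((a : ℝ) + 1) ≠ 0 := by positivity
    have e : a + 1 + b + 1 = a + (b + 1) + 1 := by ring
    rw [e] at h
    refine mul_left_cancel₀ ha (h.trans ?_)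
    rw [Nat.factorial_succ a, Nat.factorial_succ b]
    push_cast
    ring

/-- scaling of integrals of homogeneous functions -/
theorem scale_int {p : ℕ} {K : Set (Fin p → ℝ)} {F : (Fin p → ℝ) → ℝ} {k : ℕ}
    (hom : ∀ (r : ℝ) (x : Fin p → ℝ), F (r • x) = r ^ k * F x) {r : ℝ} (hr : 0 < r) :
    ∫ x in r • K, F x = r ^ (p + k) * ∫ x in K, F x := by
  have h8 := Measure.setIntegral_comp_smul_of_pos (volume : Measure (Fin p → ℝ)) F K hr
  rw [Module.finrank_fin_fun] at h8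
  simp_rw [hom] at h8
  rw [integral_const_mul, smul_eq_mul] at h8
  have h10 : (r ^ p) ≠ 0 := (pow_pos hr p).ne'
  rw [pow_add, mul_assoc, h8]
  field_simp

/-- the dilates of a compact convex set containing `0` which contain a given point -/
theorem up_set {p : ℕ} {K : Set (Fin p → ℝ)} (hK : Convex ℝ K) (hc : IsCompact K)
    (h0 : (0 : Fin p → ℝ) ∈ K) (x : Fin p → ℝ) :
    (∀ s ∈ Icc (0 : ℝ) 1, x ∉ s • K) ∨
      ∃ β ∈ Icc (0 : ℝ) 1, ∀ s ∈ Icc (0 : ℝ) 1, (x ∈ s • K ↔ β ≤ s) := by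
  set I : Set ℝ := {s | s ∈ Icc (0 : ℝ) 1 ∧ x ∈ s • K} with hI
  rcases I.eq_empty_or_nonempty with h | h
  · left
    intro s hs hx
    have : s ∈ I := ⟨hs, hx⟩
    rw [h] at this
    exact this
  · right
    have hcomp : IsCompact I := by
      have e : I = Prod.fst '' ((Icc (0 : ℝ) 1 ×ˢ K) ∩
          (fun w : ℝ × (Fin p → ℝ) => w.1 • w.2) ⁻¹' {x}) := by
        ext s
        constructor
        · rintro ⟨hs, k, hk, hkx⟩
          exact ⟨(s, k), ⟨⟨hs, hk⟩, hkx⟩, rfl⟩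
        · rintro ⟨⟨s', k⟩, ⟨⟨hs, hk⟩, hkx⟩, rfl⟩
          exact ⟨hs, k, hk, hkx⟩
      rw [e]
      refine IsCompact.image ?_ continuous_fst
      exact (isCompact_Icc.prod hc).inter_right
        (isClosed_singleton.preimage (by fun_prop))
    have hmem := hcomp.sInf_mem h
    refine ⟨sInf I, hmem.1, fun s hs => ⟨fun hx => csInf_le hcomp.bddBelow ⟨hs, hx⟩, fun hle => ?_⟩⟩
    obtain ⟨k, hk, hkx⟩ := hmem.2
    rcases eq_or_lt_of_le hs.1 with h1 | h1
    · have h2 : sInf I = 0 := le_antisymm (by rw [h1]; exact hle) hmem.1.1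
      rw [← h1]
      exact ⟨k, hk, by rw [← hkx, h2]⟩
    · refine ⟨(sInf I / s) • k, hK.smul_mem_of_zero_mem h0 hk
        ⟨div_nonneg hmem.1.1 h1.le, (div_le_one h1).2 hle⟩, ?_⟩
      simp only [smul_smul]
      rw [mul_div_cancel₀ _ h1.ne']
      exact hkx

variable {m n : ℕ}

/-- the free sum, in product coordinates -/
def sumP (K : Set (Fin m → ℝ)) (L : Set (Fin n → ℝ)) : Set ((Fin m → ℝ) × (Fin n → ℝ)) :=
  {w | ∃ t ∈ Icc (0 : ℝ) 1, w.1 ∈ (1 - t) • K ∧ w.2 ∈ t • L}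

section

variable {K : Set (Fin m → ℝ)} {L : Set (Fin n → ℝ)}

theorem mem_smul_sumP (hK0 : (0 : Fin m → ℝ) ∈ K) (hL0 : (0 : Fin n → ℝ) ∈ L)
    {r : ℝ} (hr : 0 ≤ r) {w : (Fin m → ℝ) × (Fin n → ℝ)} :
    w ∈ r • sumP K L ↔ ∃ s t : ℝ, 0 ≤ s ∧ 0 ≤ t ∧ s + t = r ∧ w.1 ∈ s • K ∧ w.2 ∈ t • L := by
  constructor
  · rintro ⟨w', ⟨t, ht, ⟨x, hx, hx'⟩, ⟨y, hy, hy'⟩⟩, rfl⟩
    refine ⟨r * (1 - t), r * t, mul_nonneg hr (by linarith [ht.2]), mul_nonneg hr ht.1, by ring,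
      ⟨x, hx, ?_⟩, ⟨y, hy, ?_⟩⟩
    · simp only at hx' ⊢
      rw [mul_smul, hx']
      rfl
    · simp only at hy' ⊢
      rw [mul_smul, hy']
      rfl
  · rintro ⟨s, t, hs, ht, hst, ⟨x, hx, hx'⟩, ⟨y, hy, hy'⟩⟩
    simp only at hx' hy'
    rcases eq_or_lt_of_le hr with h1 | h1
    · have hs0 : s = 0 := by linarith
      have ht0 : t = 0 := by linarith
      refine ⟨(0, 0), ⟨0, ⟨le_rfl, zero_le_one⟩, ⟨0, hK0, by simp⟩, ⟨0, hL0, by simp⟩⟩, ?_⟩
      ext1
      · rw [← hx', hs0]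
        simp
      · rw [← hy', ht0]
        simp
    · refine ⟨(r⁻¹ • w.1, r⁻¹ • w.2), ⟨t / r, ⟨div_nonneg ht h1.le, (div_le_one h1).2 (by linarith)⟩,
        ⟨x, hx, ?_⟩, ⟨y, hy, ?_⟩⟩, ?_⟩
      · simp only
        rw [← hx', smul_smul]
        congr 1
        rw [← hst]
        have : s + t ≠ 0 := by rw [hst]; exact h1.ne'
        field_simp
        ring
      · simp only
        rw [← hy', smul_smul]
        congr 1
        field_simp
      · ext1
        · simp only [Prod.smul_fst, smul_smul]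
          rw [mul_inv_cancel₀ h1.ne', one_smul]
        · simp only [Prod.smul_snd, smul_smul]
          rw [mul_inv_cancel₀ h1.ne', one_smul]

theorem slice_eq (hK : Convex ℝ K) (hKc : IsCompact K) (hK0 : (0 : Fin m → ℝ) ∈ K)
    (hL : Convex ℝ L) (hLc : IsCompact L) (hL0 : (0 : Fin n → ℝ) ∈ L)
    (w : (Fin m → ℝ) × (Fin n → ℝ)) :
    volume {t : ℝ | t ∈ Icc (0 : ℝ) 1 ∧ w.1 ∈ (1 - t) • K ∧ w.2 ∈ t • L} =
      volume {r : ℝ | r ∈ Icc (0 : ℝ) 1 ∧ w ∈ r • sumP K L} := by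
  rcases up_set hK hKc hK0 w.1 with hx | ⟨β, hβ, hx⟩
  · have e1 : {t : ℝ | t ∈ Icc (0 : ℝ) 1 ∧ w.1 ∈ (1 - t) • K ∧ w.2 ∈ t • L} = ∅ := by
      ext t
      simp only [mem_ofPred_eq, mem_empty_iff_false, iff_false]
      rintro ⟨ht, h1, _⟩
      exact hx (1 - t) ⟨by linarith [ht.2], by linarith [ht.1]⟩ h1
    have e2 : {r : ℝ | r ∈ Icc (0 : ℝ) 1 ∧ w ∈ r • sumP K L} = ∅ := by
      ext r
      simp only [mem_ofPred_eq, mem_empty_iff_false, iff_false]
      rintro ⟨hr, h1⟩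
      obtain ⟨s, t, hs, ht, hst, h2, _⟩ := (mem_smul_sumP hK0 hL0 hr.1).1 h1
      exact hx s ⟨hs, by linarith [hr.2]⟩ h2
    rw [e1, e2]
  · rcases up_set hL hLc hL0 w.2 with hy | ⟨α, hα, hy⟩
    · have e1 : {t : ℝ | t ∈ Icc (0 : ℝ) 1 ∧ w.1 ∈ (1 - t) • K ∧ w.2 ∈ t • L} = ∅ := by
        ext t
        simp only [mem_ofPred_eq, mem_empty_iff_false, iff_false]
        rintro ⟨ht, _, h1⟩
        exact hy t ht h1
      have e2 : {r : ℝ | r ∈ Icc (0 : ℝ) 1 ∧ w ∈ r • sumP K L} = ∅ := by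
        ext r
        simp only [mem_ofPred_eq, mem_empty_iff_false, iff_false]
        rintro ⟨hr, h1⟩
        obtain ⟨s, t, hs, ht, hst, _, h2⟩ := (mem_smul_sumP hK0 hL0 hr.1).1 h1
        exact hy t ⟨ht, by linarith [hr.2]⟩ h2
      rw [e1, e2]
    · have e1 : {t : ℝ | t ∈ Icc (0 : ℝ) 1 ∧ w.1 ∈ (1 - t) • K ∧ w.2 ∈ t • L} =
          Icc α (1 - β) := by
        ext t
        simp only [mem_ofPred_eq, mem_Icc]
        constructor
        · rintro ⟨ht, h1, h2⟩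
          have h3 := (hx (1 - t) ⟨by linarith [ht.2], by linarith [ht.1]⟩).1 h1
          have h4 := (hy t ht).1 h2
          exact ⟨h4, by linarith⟩
        · rintro ⟨h1, h2⟩
          have ht : t ∈ Icc (0 : ℝ) 1 := ⟨by linarith [hα.1], by linarith [hβ.1]⟩
          exact ⟨ht, (hx (1 - t) ⟨by linarith [ht.2], by linarith [ht.1]⟩).2 (by linarith),
            (hy t ht).2 h1⟩
      have e2 : {r : ℝ | r ∈ Icc (0 : ℝ) 1 ∧ w ∈ r • sumP K L} = Icc (α + β) 1 := by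
        ext r
        simp only [mem_ofPred_eq, mem_Icc]
        constructor
        · rintro ⟨hr, h1⟩
          obtain ⟨s, t, hs, ht, hst, h2, h3⟩ := (mem_smul_sumP hK0 hL0 hr.1).1 h1
          have h4 := (hx s ⟨hs, by linarith [hr.2]⟩).1 h2
          have h5 := (hy t ⟨ht, by linarith [hr.2]⟩).1 h3
          exact ⟨by linarith, hr.2⟩
        · rintro ⟨h1, h2⟩
          have hr : 0 ≤ r := by linarith [hα.1, hβ.1]
          refine ⟨⟨hr, h2⟩, (mem_smul_sumP hK0 hL0 hr).2 ⟨r - α, α, by linarith [hβ.1], hα.1,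
            by ring, ?_, ?_⟩⟩
          · exact (hx (r - α) ⟨by linarith [hβ.1], by linarith [hα.1]⟩).2 (by linarith)
          · exact (hy α hα).2 le_rfl
      rw [e1, e2, Real.volume_Icc, Real.volume_Icc]
      congr 1
      ring

end

end Vale.Agent.P254.FV
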