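import Vale.Agent.P254.FV.Sum1

/-!
Integration over free sums: the formula.
-/

open MeasureTheory Set Matrix
open scoped Pointwise

namespace Vale.Agent.P254.FV

variable {m n : ℕ}

/-- Fubini for compact sets -/
theorem fub {S : Set (ℝ × ((Fin m → ℝ) × (Fin n → ℝ)))} (hS : IsCompact S)
    {G : (Fin m → ℝ) × (Fin n → ℝ) → ℝ} (hG : Continuous G) :
    ∫ t : ℝ, ∫ w in {w | (t, w) ∈ S}, G w = ∫ w, (volume {t : ℝ | (t, w) ∈ S}).toReal * G w := by
  have hi : Integrable (S.indicator (fun p => G p.2))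
      ((volume : Measure ℝ).prod (volume : Measure ((Fin m → ℝ) × (Fin n → ℝ)))) := by
    rw [← Measure.volume_eq_prod]
    exact (integrable_indicator_iff hS.measurableSet).2
      ((hG.comp continuous_snd).continuousOn.integrableOn_compact hS)
  have h := integral_integral_swap (f := fun t w => S.indicator (fun p => G p.2) (t, w)) hi
  have e1 : ∀ t : ℝ, ∫ w, S.indicator (fun p => G p.2) (t, w) = ∫ w in {w | (t, w) ∈ S}, G w := by
    intro t
    have hm : MeasurableSet {w | (t, w) ∈ S} :=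
      (hS.isClosed.preimage (by fun_prop : Continuous fun w => (t, w))).measurableSet
    rw [← integral_indicator hm]
    congr 1
  have e2 : ∀ w, ∫ t : ℝ, S.indicator (fun p => G p.2) (t, w) =
      (volume {t : ℝ | (t, w) ∈ S}).toReal * G w := by
    intro w
    have hm : MeasurableSet {t : ℝ | (t, w) ∈ S} :=
      (hS.isClosed.preimage (by fun_prop : Continuous fun t : ℝ => (t, w))).measurableSet
    have e : (fun t : ℝ => S.indicator (fun p => G p.2) (t, w)) =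
        {t : ℝ | (t, w) ∈ S}.indicator (fun _ => G w) := by
      ext t
      rfl
    rw [e, integral_indicator hm, setIntegral_const, smul_eq_mul]
    rfl
  simp_rw [e1, e2] at h
  exact h

variable {K : Set (Fin m → ℝ)} {L : Set (Fin n → ℝ)}

theorem isCompact_sumP (hKc : IsCompact K) (hLc : IsCompact L) : IsCompact (sumP K L) := by
  have e : sumP K L = (fun p : ℝ × ((Fin m → ℝ) × (Fin n → ℝ)) =>
      ((1 - p.1) • p.2.1, p.1 • p.2.2)) '' (Icc (0 : ℝ) 1 ×ˢ (K ×ˢ L)) := by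
    ext w
    constructor
    · rintro ⟨t, ht, ⟨x, hx, hx'⟩, ⟨y, hy, hy'⟩⟩
      exact ⟨(t, (x, y)), ⟨ht, hx, hy⟩, Prod.ext hx' hy'⟩
    · rintro ⟨⟨t, x, y⟩, ⟨ht, hx, hy⟩, rfl⟩
      exact ⟨t, ht, ⟨x, hx, rfl⟩, ⟨y, hy, rfl⟩⟩
  rw [e]
  exact (isCompact_Icc.prod (hKc.prod hLc)).image (by fun_prop)

theorem int_sumP (hK : Convex ℝ K) (hKc : IsCompact K) (hK0 : (0 : Fin m → ℝ) ∈ K)
    (hL : Convex ℝ L) (hLc : IsCompact L) (hL0 : (0 : Fin n → ℝ) ∈ L)
    {f : (Fin m → ℝ) → ℝ} {g : (Fin n → ℝ) → ℝ} (hf : Continuous f) (hg : Continuous g) (a b : ℕ)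
    (hfa : ∀ (r : ℝ) (x : Fin m → ℝ), f (r • x) = r ^ a * f x)
    (hgb : ∀ (r : ℝ) (y : Fin n → ℝ), g (r • y) = r ^ b * g y) :
    ∫ w in sumP K L, f w.1 * g w.2 =
      ((m + a).factorial : ℝ) * (n + b).factorial / ((m + a + (n + b)).factorial : ℝ) *
        ((∫ x in K, f x) * ∫ y in L, g y) := by
  have hG : Continuous (fun w : (Fin m → ℝ) × (Fin n → ℝ) => f w.1 * g w.2) := by fun_prop
  set S : Set (ℝ × ((Fin m → ℝ) × (Fin n → ℝ))) :=
    {p | p.1 ∈ Icc (0 : ℝ) 1 ∧ p.2.1 ∈ (1 - p.1) • K ∧ p.2.2 ∈ p.1 • L} with hSdef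
  set R : Set (ℝ × ((Fin m → ℝ) × (Fin n → ℝ))) :=
    {p | p.1 ∈ Icc (0 : ℝ) 1 ∧ p.2 ∈ p.1 • sumP K L} with hRdef
  have hS : IsCompact S := by
    have e : S = (fun p : ℝ × ((Fin m → ℝ) × (Fin n → ℝ)) =>
        (p.1, ((1 - p.1) • p.2.1, p.1 • p.2.2))) '' (Icc (0 : ℝ) 1 ×ˢ (K ×ˢ L)) := by
      ext ⟨t, w⟩
      constructor
      · rintro ⟨ht, ⟨x, hx, hx'⟩, ⟨y, hy, hy'⟩⟩
        exact ⟨(t, (x, y)), ⟨ht, hx, hy⟩, Prod.ext rfl (Prod.ext hx' hy')⟩
      · rintro ⟨⟨t', x, y⟩, ⟨ht, hx, hy⟩, h⟩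
        simp only [Prod.mk.injEq] at h
        obtain ⟨rfl, rfl⟩ := h
        exact ⟨ht, ⟨x, hx, rfl⟩, ⟨y, hy, rfl⟩⟩
    rw [e]
    exact (isCompact_Icc.prod (hKc.prod hLc)).image (by fun_prop)
  have hR : IsCompact R := by
    have e : R = (fun p : ℝ × ((Fin m → ℝ) × (Fin n → ℝ)) =>
        (p.1, p.1 • p.2)) '' (Icc (0 : ℝ) 1 ×ˢ sumP K L) := by
      ext ⟨t, w⟩
      constructor
      · rintro ⟨ht, ⟨x, hx, hx'⟩⟩
        exact ⟨(t, x), ⟨ht, hx⟩, Prod.ext rfl hx'⟩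
      · rintro ⟨⟨t', x⟩, ⟨ht, hx⟩, h⟩
        simp only [Prod.mk.injEq] at h
        obtain ⟨rfl, rfl⟩ := h
        exact ⟨ht, x, hx, rfl⟩
    rw [e]
    exact (isCompact_Icc.prod (isCompact_sumP hKc hLc)).image (by fun_prop)
  have h1 := fub hS hG
  have h2 := fub hR hG
  have h3 : ∀ w : (Fin m → ℝ) × (Fin n → ℝ),
      volume {t : ℝ | (t, w) ∈ S} = volume {r : ℝ | (r, w) ∈ R} :=
    fun w => slice_eq hK hKc hK0 hL hLc hL0 w
  simp_rw [h3] at h1
  rw [← h2] at h1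
  clear h2 h3
  have hae : ∀ c : ℝ, ∀ᵐ t : ℝ, t ≠ c := fun c => by
    have : volume ({c} : Set ℝ) = 0 := measure_singleton c
    exact compl_mem_ae_iff.2 this
  have hL1 : ∫ t : ℝ, ∫ w in {w | (t, w) ∈ S}, f w.1 * g w.2 =
      (∫ t in (0 : ℝ)..1, (1 - t) ^ (m + a) * t ^ (n + b)) *
        ((∫ x in K, f x) * ∫ y in L, g y) := by
    rw [intervalIntegral.integral_of_le zero_le_one,
      ← integral_mul_const, ← integral_indicator measurableSet_Ioc]
    refine integral_congr_ae ?_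
    filter_upwards [hae 0, hae 1] with t ht0 ht1
    by_cases ht : t ∈ Ioc (0 : ℝ) 1
    · rw [indicator_of_mem ht]
      have ht' : t < 1 := lt_of_le_of_ne ht.2 ht1
      have e : {w : (Fin m → ℝ) × (Fin n → ℝ) | (t, w) ∈ S} = ((1 - t) • K) ×ˢ (t • L) := by
        ext w
        simp only [hSdef, mem_ofPred_eq, mem_prod]
        exact ⟨fun h => h.2, fun h => ⟨⟨ht.1.le, ht.2⟩, h⟩⟩
      rw [e, Measure.volume_eq_prod, setIntegral_prod_mul, scale_int hfa (by linarith),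
        scale_int hgb ht.1]
      ring
    · rw [indicator_of_notMem ht]
      have e : {w : (Fin m → ℝ) × (Fin n → ℝ) | (t, w) ∈ S} = ∅ := by
        ext w
        simp only [hSdef, mem_ofPred_eq, mem_empty_iff_false, iff_false]
        rintro ⟨h, _⟩
        exact ht ⟨lt_of_le_of_ne h.1 (Ne.symm ht0), h.2⟩
      rw [e]
      simp
  have hL2 : ∫ t : ℝ, ∫ w in {w | (t, w) ∈ R}, f w.1 * g w.2 =
      (∫ t in (0 : ℝ)..1, t ^ (m + a + (n + b))) * ∫ w in sumP K L, f w.1 * g w.2 := by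
    rw [intervalIntegral.integral_of_le zero_le_one, ← integral_mul_const,
      ← integral_indicator measurableSet_Ioc]
    refine integral_congr_ae ?_
    filter_upwards [hae 0] with t ht0
    by_cases ht : t ∈ Ioc (0 : ℝ) 1
    · rw [indicator_of_mem ht]
      have e : {w : (Fin m → ℝ) × (Fin n → ℝ) | (t, w) ∈ R} = t • sumP K L := by
        ext w
        simp only [hRdef, mem_ofPred_eq]
        exact ⟨fun h => h.2, fun h => ⟨⟨ht.1.le, ht.2⟩, h⟩⟩
      rw [e]
      have : ((volume : Measure (Fin m → ℝ)).prod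
          (volume : Measure (Fin n → ℝ))).IsAddHaarMeasure :=
        Measure.prod.instIsAddHaarMeasure _ _
      have h8 := Measure.setIntegral_comp_smul_of_pos
        ((volume : Measure (Fin m → ℝ)).prod (volume : Measure (Fin n → ℝ)))
        (fun w => f w.1 * g w.2) (sumP K L) ht.1
      rw [Module.finrank_prod, Module.finrank_fin_fun, Module.finrank_fin_fun,
        ← Measure.volume_eq_prod] at h8
      simp_rw [Prod.smul_fst, Prod.smul_snd, hfa, hgb] at h8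
      have h9 : ∀ w : (Fin m → ℝ) × (Fin n → ℝ), t ^ a * f w.1 * (t ^ b * g w.2) =
          t ^ (a + b) * (f w.1 * g w.2) := fun w => by rw [pow_add]; ring
      simp_rw [h9] at h8
      rw [integral_const_mul, smul_eq_mul] at h8
      have h10 : (t ^ (m + n)) ≠ 0 := (pow_pos ht.1 _).ne'
      have h11 : t ^ (m + a + (n + b)) = t ^ (m + n) * t ^ (a + b) := by
        rw [← pow_add]; congr 1; ring
      rw [h11, mul_assoc, h8]
      field_simp
    · rw [indicator_of_notMem ht]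
      have e : {w : (Fin m → ℝ) × (Fin n → ℝ) | (t, w) ∈ R} = ∅ := by
        ext w
        simp only [hRdef, mem_ofPred_eq, mem_empty_iff_false, iff_false]
        rintro ⟨h, _⟩
        exact ht ⟨lt_of_le_of_ne h.1 (Ne.symm ht0), h.2⟩
      rw [e]
      simp
  rw [hL1, hL2, beta_eq, integral_pow] at h1
  have h5 : ((m + a + (n + b) : ℕ) : ℝ) + 1 ≠ 0 := by positivity
  rw [Nat.factorial_succ] at h1
  push_cast at h1 h5
  simp only [one_pow, ne_eq, Nat.add_eq_zero_iff, one_ne_zero, and_false, not_false_eq_true,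
    zero_pow, sub_zero] at h1
  have h6 : ((m + a + (n + b)).factorial : ℝ) ≠ 0 := by positivity
  field_simp at h1 ⊢
  linarith

end Vale.Agent.P254.FV
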