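import Vale.Agent.P254.FV.Sum2

/-!
Free sums of convex bodies: geometry and moments.
-/

open MeasureTheory Set Matrix
open scoped Pointwise

namespace Vale.Agent.P254.FV

variable {m n : ℕ}

/-- the free sum, in `ℝᵐ⁺ⁿ` -/
def sumS (K : Set (Fin m → ℝ)) (L : Set (Fin n → ℝ)) : Set (Fin (m + n) → ℝ) :=
  {z | ((fun i => z (Fin.castAdd n i)), (fun j => z (Fin.natAdd m j))) ∈ sumP K L}

theorem preimage_glue_sum (K : Set (Fin m → ℝ)) (L : Set (Fin n → ℝ)) :
    glue m n ⁻¹' sumS K L = sumP K L := by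
  ext w
  simp only [mem_preimage, sumS, mem_ofPred_eq, glue_left, glue_right]

variable {K : Set (Fin m → ℝ)} {L : Set (Fin n → ℝ)}

theorem isCompact_sumS (hKc : IsCompact K) (hLc : IsCompact L) : IsCompact (sumS K L) := by
  have h : sumS K L =
      (fun w : (Fin m → ℝ) × (Fin n → ℝ) => Fin.append w.1 w.2) '' (sumP K L) := by
    ext z
    constructor
    · intro h
      refine ⟨_, h, ?_⟩
      ext i
      refine Fin.addCases (fun j => ?_) (fun j => ?_) i
      · simp
      · simp
    · rintro ⟨⟨x, y⟩, h, rfl⟩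
      simpa [sumS] using h
  rw [h]
  refine (isCompact_sumP hKc hLc).image ?_
  refine continuous_pi fun i => ?_
  refine Fin.addCases (fun j => ?_) (fun j => ?_) i
  · simp only [Fin.append_left]; fun_prop
  · simp only [Fin.append_right]; fun_prop

theorem convex_sumP (hK : Convex ℝ K) (hL : Convex ℝ L) : Convex ℝ (sumP K L) := by
  rintro w ⟨t, ht, hx, hy⟩ w' ⟨t', ht', hx', hy'⟩ a b ha hb hab
  refine ⟨a * t + b * t', ⟨add_nonneg (mul_nonneg ha ht.1) (mul_nonneg hb ht'.1), ?_⟩, ?_, ?_⟩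
  · nlinarith [ht.2, ht'.2]
  · have e : 1 - (a * t + b * t') = a * (1 - t) + b * (1 - t') := by
      linear_combination (-1 : ℝ) * hab
    rw [e, hK.add_smul (mul_nonneg ha (by linarith [ht.2])) (mul_nonneg hb (by linarith [ht'.2])),
      mul_smul, mul_smul]
    exact add_mem_add (smul_mem_smul_set hx) (smul_mem_smul_set hx')
  · rw [hL.add_smul (mul_nonneg ha ht.1) (mul_nonneg hb ht'.1), mul_smul, mul_smul]
    exact add_mem_add (smul_mem_smul_set hy) (smul_mem_smul_set hy')

theorem convex_sumS (hK : Convex ℝ K) (hL : Convex ℝ L) : Convex ℝ (sumS K L) := by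
  intro z hz z' hz' a b ha hb hab
  exact convex_sumP hK hL hz hz' ha hb hab

theorem freeSum_eq (hK : Convex ℝ K) (hL : Convex ℝ L) (hK0 : (0 : Fin m → ℝ) ∈ K)
    (hL0 : (0 : Fin n → ℝ) ∈ L) : P254.freeSum K L = sumS K L := by
  apply Subset.antisymm
  · refine convexHull_min ?_ (convex_sumS hK hL)
    rintro z (⟨x, hx, rfl⟩ | ⟨y, hy, rfl⟩)
    · refine ⟨0, ⟨le_rfl, zero_le_one⟩, ?_, ?_⟩
      · simpa using hx
      · exact ⟨0, hL0, by ext j; simp⟩
    · refine ⟨1, ⟨zero_le_one, le_rfl⟩, ?_, ?_⟩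
      · exact ⟨0, hK0, by ext j; simp⟩
      · simpa using hy
  · rintro z ⟨t, ht, ⟨x, hx, hx'⟩, ⟨y, hy, hy'⟩⟩
    have h4 := (convex_convexHull ℝ ((fun x => Fin.append x 0) '' K ∪
      (fun y => Fin.append 0 y) '' L : Set (Fin (m + n) → ℝ)))
      (subset_convexHull ℝ _ (Or.inl (mem_image_of_mem (fun x => Fin.append x 0) hx)))
      (subset_convexHull ℝ _ (Or.inr (mem_image_of_mem (fun y => Fin.append 0 y) hy)))
      (sub_nonneg.2 ht.2) ht.1 (sub_add_cancel _ _)
    have e : (1 - t) • (Fin.append x 0 : Fin (m + n) → ℝ) + t • (Fin.append 0 y : Fin (m + n) → ℝ) =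
        z := by
      ext i
      refine Fin.addCases (fun j => ?_) (fun j => ?_) i
      · have := congrFun hx' j
        simpa using this
      · have := congrFun hy' j
        simpa using this
    rw [e] at h4
    exact h4

theorem int_sumS (hK : Convex ℝ K) (hKc : IsCompact K) (hK0 : (0 : Fin m → ℝ) ∈ K)
    (hL : Convex ℝ L) (hLc : IsCompact L) (hL0 : (0 : Fin n → ℝ) ∈ L)
    {F : (Fin (m + n) → ℝ) → ℝ}
    {f : (Fin m → ℝ) → ℝ} {g : (Fin n → ℝ) → ℝ} (h : ∀ w, F (glue m n w) = f w.1 * g w.2)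
    (hf : Continuous f) (hg : Continuous g) (a b : ℕ)
    (hfa : ∀ (r : ℝ) (x : Fin m → ℝ), f (r • x) = r ^ a * f x)
    (hgb : ∀ (r : ℝ) (y : Fin n → ℝ), g (r • y) = r ^ b * g y) :
    ∫ z in sumS K L, F z =
      ((m + a).factorial : ℝ) * (n + b).factorial / ((m + a + (n + b)).factorial : ℝ) *
        ((∫ x in K, f x) * ∫ y in L, g y) := by
  rw [← (glue_mp m n).setIntegral_preimage_emb (MeasurableEquiv.measurableEmbedding _) F,
    preimage_glue_sum]
  simp_rw [h]
  exact int_sumP hK hKc hK0 hL hLc hL0 hf hg a b hfa hgb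

/-- the coefficient -/
noncomputable def qq (m n : ℕ) : ℝ := (m.factorial : ℝ) * n.factorial / ((m + n).factorial : ℝ)

theorem qq_ne (m n : ℕ) : qq m n ≠ 0 := by unfold qq; positivity

theorem q10 (m n : ℕ) : ((m + 1).factorial : ℝ) * (n + 0).factorial /
    ((m + 1 + (n + 0)).factorial : ℝ) = qq m n * (((m : ℝ) + 1) / ((m : ℝ) + n + 1)) := by
  have e : m + 1 + (n + 0) = m + n + 1 := by ring
  rw [e, Nat.factorial_succ, Nat.factorial_succ, qq, add_zero]
  push_cast
  field_simp

theorem q01 (m n : ℕ) : ((m + 0).factorial : ℝ) * (n + 1).factorial /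
    ((m + 0 + (n + 1)).factorial : ℝ) = qq m n * (((n : ℝ) + 1) / ((m : ℝ) + n + 1)) := by
  have e : m + 0 + (n + 1) = m + n + 1 := by ring
  rw [e, Nat.factorial_succ, Nat.factorial_succ, qq, add_zero]
  push_cast
  field_simp

theorem q11 (m n : ℕ) : ((m + 1).factorial : ℝ) * (n + 1).factorial /
    ((m + 1 + (n + 1)).factorial : ℝ) =
      qq m n * (((m : ℝ) + 1) * ((n : ℝ) + 1) / (((m : ℝ) + n + 1) * ((m : ℝ) + n + 2))) := by
  have e : m + 1 + (n + 1) = m + n + 1 + 1 := by ring
  rw [e, Nat.factorial_succ, Nat.factorial_succ, Nat.factorial_succ, Nat.factorial_succ, qq]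
  push_cast
  have : ((m : ℝ) + n + 1 + 1) = (m : ℝ) + n + 2 := by ring
  rw [this]
  field_simp

theorem q20 (m n : ℕ) : ((m + 2).factorial : ℝ) * (n + 0).factorial /
    ((m + 2 + (n + 0)).factorial : ℝ) =
      qq m n * (((m : ℝ) + 1) * ((m : ℝ) + 2) / (((m : ℝ) + n + 1) * ((m : ℝ) + n + 2))) := by
  have e : m + 2 + (n + 0) = m + n + 1 + 1 := by ring
  rw [e, Nat.factorial_succ (m + n + 1), Nat.factorial_succ (m + n), Nat.factorial_succ (m + 1),
    Nat.factorial_succ m, qq, add_zero]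
  push_cast
  have : ((m : ℝ) + n + 1 + 1) = (m : ℝ) + n + 2 := by ring
  rw [this]
  have : ((m : ℝ) + 1 + 1) = (m : ℝ) + 2 := by ring
  rw [this]
  field_simp

theorem q02 (m n : ℕ) : ((m + 0).factorial : ℝ) * (n + 2).factorial /
    ((m + 0 + (n + 2)).factorial : ℝ) =
      qq m n * (((n : ℝ) + 1) * ((n : ℝ) + 2) / (((m : ℝ) + n + 1) * ((m : ℝ) + n + 2))) := by
  have e : m + 0 + (n + 2) = m + n + 1 + 1 := by ring
  rw [e, Nat.factorial_succ (m + n + 1), Nat.factorial_succ (m + n), Nat.factorial_succ (n + 1),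
    Nat.factorial_succ n, qq, add_zero]
  push_cast
  have : ((m : ℝ) + n + 1 + 1) = (m : ℝ) + n + 2 := by ring
  rw [this]
  have : ((n : ℝ) + 1 + 1) = (n : ℝ) + 2 := by ring
  rw [this]
  field_simp

theorem vol_sumS (hK : Convex ℝ K) (hKc : IsCompact K) (hK0 : (0 : Fin m → ℝ) ∈ K)
    (hL : Convex ℝ L) (hLc : IsCompact L) (hL0 : (0 : Fin n → ℝ) ∈ L) :
    (volume (sumS K L)).toReal = qq m n * ((volume K).toReal * (volume L).toReal) := by
  have h := int_sumS hK hKc hK0 hL hLc hL0 (F := fun _ => 1) (f := fun _ => 1) (g := fun _ => 1)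
    (fun w => by simp) continuous_const continuous_const 0 0 (fun r x => by simp)
    (fun r x => by simp)
  simpa [Measure.real, qq] using h

/-- the covariance matrix of the free sum, up to normalisation -/
noncomputable def covS (K : Set (Fin m → ℝ)) (L : Set (Fin n → ℝ)) :
    Matrix (Fin m ⊕ Fin n) (Fin m ⊕ Fin n) ℝ :=
  fromBlocks
    ((((m : ℝ) + 1) * ((m : ℝ) + 2)) • covMatrix K +
      ((m : ℝ) + 1) • vecMulVec (centroid K) (centroid K)) 0 0
    ((((n : ℝ) + 1) * ((n : ℝ) + 2)) • covMatrix L +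
      ((n : ℝ) + 1) • vecMulVec (centroid L) (centroid L)) -
  (1 / ((m : ℝ) + n + 1)) • vecMulVec
    (Sum.elim (((m : ℝ) + 1) • centroid K) (((n : ℝ) + 1) • centroid L))
    (Sum.elim (((m : ℝ) + 1) • centroid K) (((n : ℝ) + 1) • centroid L))

theorem cov_sumS (hK : IsConvexBody K) (hK0 : (0 : Fin m → ℝ) ∈ K)
    (hL : IsConvexBody L) (hL0 : (0 : Fin n → ℝ) ∈ L) :
    covMatrix (sumS K L) = (1 / (((m : ℝ) + n + 1) * ((m : ℝ) + n + 2))) •
      (covS K L).submatrix finSumFinEquiv.symm finSumFinEquiv.symm := by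
  have hV := (vol_pos hK).ne'
  have hW := (vol_pos hL).ne'
  have hq := qq_ne m n
  have hvol := vol_sumS hK.1 hK.2.1 hK0 hL.1 hL.2.1 hL0
  have hVW : (volume (sumS K L)).toReal ≠ 0 := by
    rw [hvol]
    exact mul_ne_zero hq (mul_ne_zero hV hW)
  have hc := isCompact_sumS hK.2.1 hL.2.1
  have hN1 : ((m : ℝ) + n + 1) ≠ 0 := by positivity
  have hN2 : ((m : ℝ) + n + 2) ≠ 0 := by positivity
  have hcl : ∀ i : Fin m, centroid (sumS K L) (Fin.castAdd n i) =
      ((m : ℝ) + 1) / ((m : ℝ) + n + 1) * centroid K i := by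
    intro i
    have h := int_sumS hK.1 hK.2.1 hK0 hL.1 hL.2.1 hL0 (F := fun z => z (Fin.castAdd n i))
      (f := fun x => x i) (g := fun _ => 1) (fun w => by simp [glue_left]) (by fun_prop)
      (by fun_prop) 1 0 (fun r x => by simp) (fun r x => by simp)
    rw [q10] at h
    rw [centroid, hvol, h, setIntegral_const, smul_eq_mul, mul_one, Measure.real, centroid]
    field_simp
  have hcr : ∀ j : Fin n, centroid (sumS K L) (Fin.natAdd m j) =
      ((n : ℝ) + 1) / ((m : ℝ) + n + 1) * centroid L j := by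
    intro j
    have h := int_sumS hK.1 hK.2.1 hK0 hL.1 hL.2.1 hL0 (F := fun z => z (Fin.natAdd m j))
      (f := fun _ => 1) (g := fun y => y j) (fun w => by simp [glue_right]) (by fun_prop)
      (by fun_prop) 0 1 (fun r x => by simp) (fun r x => by simp)
    rw [q01] at h
    rw [centroid, hvol, h, setIntegral_const, smul_eq_mul, mul_one, Measure.real, centroid]
    field_simp
  have h12 : ∀ (i : Fin m) (j : Fin n),
      covMatrix (sumS K L) (Fin.castAdd n i) (Fin.natAdd m j) =
        -((((m : ℝ) + 1) * ((n : ℝ) + 1)) / (((m : ℝ) + n + 1) ^ 2 * ((m : ℝ) + n + 2))) *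
          (centroid K i * centroid L j) := by
    intro i j
    have h := int_sumS hK.1 hK.2.1 hK0 hL.1 hL.2.1 hL0
      (F := fun z => z (Fin.castAdd n i) * z (Fin.natAdd m j))
      (f := fun x => x i) (g := fun y => y j) (fun w => by simp [glue_left, glue_right])
      (by fun_prop) (by fun_prop) 1 1 (fun r x => by simp) (fun r x => by simp)
    rw [q11] at h
    rw [cov_eq hc hVW, hcl, hcr, hvol, h, centroid, centroid]
    field_simp
    ring
  ext i j
  refine Fin.addCases (fun i' => ?_) (fun i' => ?_) i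
  · refine Fin.addCases (fun j' => ?_) (fun j' => ?_) j
    · have h := int_sumS hK.1 hK.2.1 hK0 hL.1 hL.2.1 hL0
        (F := fun z => z (Fin.castAdd n i') * z (Fin.castAdd n j'))
        (f := fun x => x i' * x j') (g := fun _ => 1) (fun w => by simp [glue_left])
        (by fun_prop) (by fun_prop) 2 0 (fun r x => by simp; ring) (fun r x => by simp)
      rw [q20] at h
      rw [cov_eq hc hVW, hcl, hcl, hvol, h, setIntegral_const, smul_eq_mul, mul_one,
        Measure.real]
      simp only [covS, Matrix.smul_apply, submatrix_apply, finSumFinEquiv_symm_apply_castAdd,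
        Matrix.sub_apply, fromBlocks_apply₁₁, vecMulVec_apply, Sum.elim_inl, Matrix.add_apply,
        Pi.smul_apply, smul_eq_mul]
      rw [cov_eq hK.2.1 hV]
      field_simp
      ring
    · rw [h12]
      simp only [covS, Matrix.smul_apply, submatrix_apply, finSumFinEquiv_symm_apply_castAdd,
        finSumFinEquiv_symm_apply_natAdd, Matrix.zero_apply,
        Matrix.sub_apply, fromBlocks_apply₁₂, vecMulVec_apply, Sum.elim_inl, Sum.elim_inr,
        Pi.smul_apply, smul_eq_mul]
      field_simp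
      ring
  · refine Fin.addCases (fun j' => ?_) (fun j' => ?_) j
    · rw [covMatrix_symm, h12]
      simp only [covS, Matrix.smul_apply, submatrix_apply, finSumFinEquiv_symm_apply_castAdd,
        finSumFinEquiv_symm_apply_natAdd, Matrix.zero_apply,
        Matrix.sub_apply, fromBlocks_apply₂₁, vecMulVec_apply, Sum.elim_inl, Sum.elim_inr,
        Pi.smul_apply, smul_eq_mul]
      field_simp
      ring
    · have h := int_sumS hK.1 hK.2.1 hK0 hL.1 hL.2.1 hL0
        (F := fun z => z (Fin.natAdd m i') * z (Fin.natAdd m j'))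
        (f := fun _ => 1) (g := fun y => y i' * y j') (fun w => by simp [glue_right])
        (by fun_prop) (by fun_prop) 0 2 (fun r x => by simp) (fun r x => by simp; ring)
      rw [q02] at h
      rw [cov_eq hc hVW, hcr, hcr, hvol, h, setIntegral_const, smul_eq_mul, mul_one,
        Measure.real]
      simp only [covS, Matrix.smul_apply, submatrix_apply, finSumFinEquiv_symm_apply_natAdd,
        Matrix.sub_apply, fromBlocks_apply₂₂, vecMulVec_apply, Sum.elim_inr, Matrix.add_apply,
        Pi.smul_apply, smul_eq_mul]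
      rw [cov_eq hL.2.1 hW]
      field_simp
      ring

end Vale.Agent.P254.FV
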