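import Vale.Agent.P254.FV.Sum3
import Vale.Agent.P254.Unc.Near

/-!
Free sums of convex bodies: the bound on the centroid and the determinant.
-/

open MeasureTheory Set Matrix
open scoped Pointwise

namespace Vale.Agent.P254.FV

variable {m n p : ℕ}

theorem deriv_bound {A B C : ℝ}
    (h : ∀ r ∈ Ioo (0 : ℝ) 1, 0 ≤ (1 - r ^ (p + 2)) * A - (1 - r ^ (p + 1)) * B + (1 - r ^ p) * C) :
    0 ≤ ((p : ℝ) + 2) * A - ((p : ℝ) + 1) * B + (p : ℝ) * C := by
  let q : ℝ → ℝ := fun r => (∑ i ∈ Finset.range (p + 2), r ^ i) * A -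
    (∑ i ∈ Finset.range (p + 1), r ^ i) * B + (∑ i ∈ Finset.range p, r ^ i) * C
  have hq : Continuous q := by fun_prop
  have h1 : Ioo (0 : ℝ) 1 ⊆ {r | 0 ≤ q r} := by
    intro r hr
    have h2 := h r hr
    rw [← geom_sum_mul_neg, ← geom_sum_mul_neg, ← geom_sum_mul_neg] at h2
    have h3 : 0 < 1 - r := by linarith [hr.2]
    have h4 : 0 ≤ (1 - r) * q r := by
      simp only [q]
      linarith
    exact nonneg_of_mul_nonneg_right h4 h3
  have h2 : IsClosed {r | 0 ≤ q r} := isClosed_le continuous_const hq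
  have h3 : (1 : ℝ) ∈ {r | 0 ≤ q r} := by
    apply closure_minimal h1 h2
    rw [closure_Ioo zero_ne_one]
    exact ⟨zero_le_one, le_rfl⟩
  simpa [q] using h3

theorem kls (hp : 1 ≤ p) {K : Set (Fin p → ℝ)} (hK : IsConvexBody K)
    (h0 : (0 : Fin p → ℝ) ∈ K) {η : Fin p → ℝ}
    (h : covMatrix K *ᵥ η = (1 / ((p : ℝ) + 2)) • centroid K) :
    0 ≤ centroid K ⬝ᵥ η ∧ centroid K ⬝ᵥ η ≤ p := by
  have hV := vol_pos hK
  set V := (volume K).toReal with hVdef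
  set s := centroid K ⬝ᵥ η with hs
  have hp0 : (0 : ℝ) < p := by exact_mod_cast hp
  have hquad : ∑ i, ∑ j, η i * covMatrix K i j * η j = s / ((p : ℝ) + 2) := by
    have e : ∑ i, ∑ j, η i * covMatrix K i j * η j = η ⬝ᵥ (covMatrix K *ᵥ η) := by
      simp only [dotProduct, mulVec, Finset.mul_sum]
      refine Finset.sum_congr rfl (fun i _ => Finset.sum_congr rfl (fun j _ => ?_))
      ring
    rw [e, h, dotProduct_smul, smul_eq_mul, dotProduct_comm, ← hs]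
    ring
  have hl : ∀ x : Fin p → ℝ, ∑ i, η i * (x i - centroid K i) = η ⬝ᵥ x - s := by
    intro x
    rw [hs, dotProduct_comm (centroid K), dotProduct, dotProduct, ← Finset.sum_sub_distrib]
    exact Finset.sum_congr rfl fun i _ => by ring
  have hcont : Continuous fun x : Fin p → ℝ => η ⬝ᵥ x := by
    unfold dotProduct
    fun_prop
  have hI1 : ∫ x in K, η ⬝ᵥ x = V * s := by
    have h1 : ∀ i, ∫ x in K, x i = V * centroid K i := by
      intro i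
      simp only [centroid]
      rw [← hVdef]
      field_simp
    simp only [dotProduct]
    rw [integral_finsetSum _ (fun i _ => intOn hK.2.1 (by fun_prop))]
    simp_rw [integral_const_mul, h1]
    rw [hs, dotProduct, Finset.mul_sum]
    exact Finset.sum_congr rfl fun i _ => by ring
  have hexp : ∀ (lam : ℝ) (T : Set (Fin p → ℝ)), IsCompact T → ∫ x in T, (η ⬝ᵥ x - lam) ^ 2 =
      (∫ x in T, (η ⬝ᵥ x) ^ 2) - 2 * lam * (∫ x in T, η ⬝ᵥ x) +
        lam ^ 2 * ∫ x in T, (1 : ℝ) := by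
    intro lam T hT
    have e : ∀ x : Fin p → ℝ, (η ⬝ᵥ x - lam) ^ 2 =
        (η ⬝ᵥ x) ^ 2 - 2 * lam * (η ⬝ᵥ x) + lam ^ 2 * 1 := fun x => by ring
    simp_rw [e]
    rw [integral_add, integral_sub, integral_const_mul, integral_const_mul]
    · exact intOn hT (by fun_prop)
    · exact intOn hT (by fun_prop)
    · exact intOn hT (by fun_prop)
    · exact intOn hT (by fun_prop)
  have hV1 : ∫ _ in K, (1 : ℝ) = V := by
    rw [setIntegral_const, smul_eq_mul, mul_one]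
    rfl
  have hI2 : ∫ x in K, (η ⬝ᵥ x) ^ 2 = V * (s / ((p : ℝ) + 2) + s ^ 2) := by
    have h1 := cov_quad hK.2.1 η
    simp_rw [hl] at h1
    rw [hquad, hexp s K hK.2.1, hI1, hV1, ← hVdef] at h1
    field_simp at h1 ⊢
    linarith
  have hmono : ∀ lam : ℝ, ∀ r ∈ Ioo (0 : ℝ) 1, 0 ≤ (1 - r ^ (p + 2)) * (∫ x in K, (η ⬝ᵥ x) ^ 2) -
      (1 - r ^ (p + 1)) * (2 * lam * ∫ x in K, η ⬝ᵥ x) + (1 - r ^ p) * (lam ^ 2 * V) := by
    intro lam r hr
    have hsub : r • K ⊆ K := by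
      rintro _ ⟨x, hx, rfl⟩
      exact hK.1.smul_mem_of_zero_mem h0 hx ⟨hr.1.le, hr.2.le⟩
    have h1 : ∫ x in r • K, (η ⬝ᵥ x - lam) ^ 2 ≤ ∫ x in K, (η ⬝ᵥ x - lam) ^ 2 :=
      setIntegral_mono_set (intOn hK.2.1 (by fun_prop))
        (Filter.Eventually.of_forall fun x => sq_nonneg _) hsub.eventuallyLE
    rw [hexp lam _ (hK.2.1.smul r), hexp lam _ hK.2.1] at h1
    have e2 : ∫ x in r • K, (η ⬝ᵥ x) ^ 2 = r ^ (p + 2) * ∫ x in K, (η ⬝ᵥ x) ^ 2 :=
      scale_int (fun r x => by rw [dotProduct_smul, smul_eq_mul, mul_pow]) hr.1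
    have e1 : ∫ x in r • K, η ⬝ᵥ x = r ^ (p + 1) * ∫ x in K, η ⬝ᵥ x :=
      scale_int (fun r x => by rw [dotProduct_smul, smul_eq_mul, pow_one]) hr.1
    have e0 : ∫ x in r • K, (1 : ℝ) = r ^ (p + 0) * ∫ x in K, (1 : ℝ) :=
      scale_int (F := fun _ => (1 : ℝ)) (fun r x => by simp) hr.1
    rw [e2, e1, e0, hV1, add_zero] at h1
    linarith
  have hs0 : 0 ≤ s := by
    have h1 : 0 ≤ s / ((p : ℝ) + 2) := by
      rw [← hquad, cov_quad hK.2.1]
      exact mul_nonneg (inv_nonneg.mpr ENNReal.toReal_nonneg) (integral_nonneg fun x => sq_nonneg _)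
    have h2 : (0 : ℝ) < (p : ℝ) + 2 := by positivity
    have h3 := mul_nonneg h1 h2.le
    rwa [div_mul_cancel₀ _ h2.ne'] at h3
  refine ⟨hs0, ?_⟩
  have h5 := deriv_bound (hmono (((p : ℝ) + 1) * s / p))
  rw [hI1, hI2] at h5
  have e : ((p : ℝ) + 2) * (V * (s / ((p : ℝ) + 2) + s ^ 2)) -
      ((p : ℝ) + 1) * (2 * (((p : ℝ) + 1) * s / p) * (V * s)) +
      (p : ℝ) * ((((p : ℝ) + 1) * s / p) ^ 2 * V) = V * s * (p - s) / p := by
    field_simp
    ring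
  rw [e] at h5
  by_contra hlt
  rw [not_le] at hlt
  have hs1 : 0 < s := hp0.trans hlt
  have : V * s * (p - s) / p < 0 := by
    apply div_neg_of_neg_of_pos _ hp0
    exact mul_neg_of_pos_of_neg (mul_pos hV hs1) (by linarith)
  linarith

theorem det_one_add_vecMulVec' {ι : Type*} [Fintype ι] [DecidableEq ι] (u v : ι → ℝ) :
    det (1 + vecMulVec u v) = 1 + v ⬝ᵥ u := by
  rw [vecMulVec_eq Unit, det_one_add_replicateCol_mul_replicateRow]

theorem X_eq {C : Matrix (Fin p) (Fin p) ℝ} {c η : Fin p → ℝ}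
    (h : C *ᵥ η = (1 / ((p : ℝ) + 2)) • c) :
    (((p : ℝ) + 1) * ((p : ℝ) + 2)) • C + ((p : ℝ) + 1) • vecMulVec c c =
      (((p : ℝ) + 1) * ((p : ℝ) + 2)) • (C * (1 + vecMulVec η c)) := by
  have h2 : ((p : ℝ) + 2) ≠ 0 := by positivity
  rw [Matrix.mul_add, Matrix.mul_one, mul_vecMulVec, h, smul_add]
  congr 1
  ext i j
  simp only [Matrix.smul_apply, vecMulVec_apply, Pi.smul_apply, smul_eq_mul]
  field_simp

theorem det_X {C : Matrix (Fin p) (Fin p) ℝ} {c η : Fin p → ℝ}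
    (h : C *ᵥ η = (1 / ((p : ℝ) + 2)) • c) :
    det ((((p : ℝ) + 1) * ((p : ℝ) + 2)) • C + ((p : ℝ) + 1) • vecMulVec c c) =
      (((p : ℝ) + 1) * ((p : ℝ) + 2)) ^ p * (C.det * (1 + c ⬝ᵥ η)) := by
  rw [X_eq h, det_smul, Fintype.card_fin, det_mul, det_one_add_vecMulVec']

theorem X_mulVec {C : Matrix (Fin p) (Fin p) ℝ} {c η : Fin p → ℝ}
    (h : C *ᵥ η = (1 / ((p : ℝ) + 2)) • c) (h1 : 1 + c ⬝ᵥ η ≠ 0) :
    ((((p : ℝ) + 1) * ((p : ℝ) + 2)) • C + ((p : ℝ) + 1) • vecMulVec c c) *ᵥ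
      ((1 / (1 + c ⬝ᵥ η)) • η) = ((p : ℝ) + 1) • c := by
  have h2 : ((p : ℝ) + 2) ≠ 0 := by positivity
  rw [mulVec_smul, Matrix.add_mulVec, Matrix.smul_mulVec, h, Matrix.smul_mulVec, vecMulVec_mulVec]
  ext i
  simp only [Pi.smul_apply, Pi.add_apply, smul_eq_mul, MulOpposite.smul_eq_mul_unop,
    MulOpposite.unop_op]
  field_simp

end Vale.Agent.P254.FV
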