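import Vale.Agent.P254.FV.Sum4

/-!
Free sums of convex bodies: the normalised determinant.
-/

open MeasureTheory Set Matrix
open scoped Pointwise

namespace Vale.Agent.P254.FV

variable {m n : ℕ} {K : Set (Fin m → ℝ)} {L : Set (Fin n → ℝ)}

theorem det_covS {η : Fin m → ℝ} {θ : Fin n → ℝ}
    (h1 : covMatrix K *ᵥ η = (1 / ((m : ℝ) + 2)) • centroid K)
    (h2 : covMatrix L *ᵥ θ = (1 / ((n : ℝ) + 2)) • centroid L)
    (hf1 : 1 + centroid K ⬝ᵥ η ≠ 0) (hf2 : 1 + centroid L ⬝ᵥ θ ≠ 0) :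
    (covS K L).det =
      (((m : ℝ) + 1) * ((m : ℝ) + 2)) ^ m * ((covMatrix K).det * (1 + centroid K ⬝ᵥ η)) *
      ((((n : ℝ) + 1) * ((n : ℝ) + 2)) ^ n * ((covMatrix L).det * (1 + centroid L ⬝ᵥ θ))) *
      (1 - 1 / ((m : ℝ) + n + 1) *
        (((m : ℝ) + 1) * (centroid K ⬝ᵥ η) / (1 + centroid K ⬝ᵥ η) +
          ((n : ℝ) + 1) * (centroid L ⬝ᵥ θ) / (1 + centroid L ⬝ᵥ θ))) := by
  set X1 := (((m : ℝ) + 1) * ((m : ℝ) + 2)) • covMatrix K +
      ((m : ℝ) + 1) • vecMulVec (centroid K) (centroid K) with hX1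
  set X2 := (((n : ℝ) + 1) * ((n : ℝ) + 2)) • covMatrix L +
      ((n : ℝ) + 1) • vecMulVec (centroid L) (centroid L) with hX2
  set w : Fin m ⊕ Fin n → ℝ :=
    Sum.elim (((m : ℝ) + 1) • centroid K) (((n : ℝ) + 1) • centroid L) with hw
  set ζ : Fin m ⊕ Fin n → ℝ := Sum.elim ((1 / (1 + centroid K ⬝ᵥ η)) • η)
    ((1 / (1 + centroid L ⬝ᵥ θ)) • θ) with hζ
  have hD : fromBlocks X1 0 0 X2 *ᵥ ζ = w := by
    rw [hζ, fromBlocks_mulVec]
    simp only [Sum.elim_comp_inl, Sum.elim_comp_inr, zero_mulVec, add_zero, zero_add]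
    rw [hX1, hX2, X_mulVec h1 hf1, X_mulVec h2 hf2]
  have e : covS K L = fromBlocks X1 0 0 X2 * (1 + vecMulVec ((-(1 / ((m : ℝ) + n + 1))) • ζ) w) := by
    rw [Matrix.mul_add, Matrix.mul_one, mul_vecMulVec, mulVec_smul, hD, smul_vecMulVec, neg_smul,
      ← sub_eq_add_neg]
    rfl
  rw [e, det_mul, det_fromBlocks_zero₁₂, det_one_add_vecMulVec', hX1, hX2, det_X h1, det_X h2,
    dotProduct_smul, hw, hζ, sumElim_dotProduct_sumElim]
  simp only [smul_dotProduct, dotProduct_smul, smul_eq_mul]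
  ring

theorem exists_eta (hK : IsConvexBody K) :
    ∃ η : Fin m → ℝ, covMatrix K *ᵥ η = (1 / ((m : ℝ) + 2)) • centroid K := by
  refine ⟨(covMatrix K)⁻¹ *ᵥ ((1 / ((m : ℝ) + 2)) • centroid K), ?_⟩
  rw [mulVec_mulVec, mul_nonsing_inv _ (isUnit_iff_ne_zero.2 (covMatrix_posDef hK).det_pos.ne'),
    one_mulVec]

theorem Dn_sumS (hm : 1 ≤ m) (hn : 1 ≤ n) (hK : IsConvexBody K) (hK0 : (0 : Fin m → ℝ) ∈ K)
    (hL : IsConvexBody L) (hL0 : (0 : Fin n → ℝ) ∈ L) :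
    ∃ T : ℝ, 0 ≤ T ∧ T ≤ 1 ∧
      Dn (sumS K L) * (simpC m * simpC n) = Dn K * Dn L * T * simpC (m + n) := by
  obtain ⟨η, h1⟩ := exists_eta hK
  obtain ⟨θ, h2⟩ := exists_eta hL
  obtain ⟨ha0, ha1⟩ := kls hm hK hK0 h1
  obtain ⟨hb0, hb1⟩ := kls hn hL hL0 h2
  have hV := (vol_pos hK).ne'
  have hW := (vol_pos hL).ne'
  have hd := det_covS h1 h2 (by linarith) (by linarith)
  set a := centroid K ⬝ᵥ η with ha
  set b := centroid L ⬝ᵥ θ with hb
  have hm0 : (0 : ℝ) < (m : ℝ) + 1 := by positivity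
  have hn0 : (0 : ℝ) < (n : ℝ) + 1 := by positivity
  have hA0 : 0 ≤ (1 + a) / ((m : ℝ) + 1) := by positivity
  have hB0 : 0 ≤ (1 + b) / ((n : ℝ) + 1) := by positivity
  have hA1 : (1 + a) / ((m : ℝ) + 1) ≤ 1 := (div_le_one hm0).2 (by linarith)
  have hB1 : (1 + b) / ((n : ℝ) + 1) ≤ 1 := (div_le_one hn0).2 (by linarith)
  refine ⟨(1 + a) / ((m : ℝ) + 1) + (1 + b) / ((n : ℝ) + 1) -
    (1 + a) / ((m : ℝ) + 1) * ((1 + b) / ((n : ℝ) + 1)), by nlinarith, by nlinarith, ?_⟩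
  unfold Dn
  rw [cov_sumS hK hK0 hL hL0, det_smul, Fintype.card_fin, det_submatrix_equiv_self, hd,
    vol_sumS hK.1 hK.2.1 hK0 hL.1 hL.2.1 hL0]
  unfold simpC qq
  push_cast
  have h3 : (1 : ℝ) + a ≠ 0 := by positivity
  have h4 : (1 : ℝ) + b ≠ 0 := by positivity
  have h5 : ((m : ℝ) + n + 1) ≠ 0 := by positivity
  have h6 : (((m : ℝ) + n + 1) * ((m : ℝ) + n + 2)) ^ (m + n) ≠ 0 := by positivity
  have h7 : (((m : ℝ) + 1) * ((m : ℝ) + 2)) ^ m ≠ 0 := by positivity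
  have h8 : (((n : ℝ) + 1) * ((n : ℝ) + 2)) ^ n ≠ 0 := by positivity
  have h9 : (m.factorial : ℝ) ≠ 0 := by positivity
  have h10 : (n.factorial : ℝ) ≠ 0 := by positivity
  have h11 : ((m + n).factorial : ℝ) ≠ 0 := by positivity
  rw [one_div, inv_pow]
  generalize (((m : ℝ) + n + 1) * ((m : ℝ) + n + 2)) ^ (m + n) = P at h6 ⊢
  generalize (((m : ℝ) + 1) * ((m : ℝ) + 2)) ^ m = P1 at h7 ⊢
  generalize (((n : ℝ) + 1) * ((n : ℝ) + 2)) ^ n = P2 at h8 ⊢
  generalize (m.factorial : ℝ) = F1 at h9 ⊢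
  generalize (n.factorial : ℝ) = F2 at h10 ⊢
  generalize ((m + n).factorial : ℝ) = F at h11 ⊢
  generalize (volume K).toReal = V at hV ⊢
  generalize (volume L).toReal = W at hW ⊢
  generalize (covMatrix K).det = d1
  generalize (covMatrix L).det = d2
  clear_value a b
  field_simp
  ring

/-- embedding as the first factor -/
def inL (m n : ℕ) : (Fin m → ℝ) →ₗ[ℝ] (Fin (m + n) → ℝ) where
  toFun x := Fin.append x 0
  map_add' x y := by
    ext i
    refine Fin.addCases (fun j => ?_) (fun j => ?_) i <;> simp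
  map_smul' r x := by
    ext i
    refine Fin.addCases (fun j => ?_) (fun j => ?_) i <;> simp

/-- embedding as the second factor -/
def inR (m n : ℕ) : (Fin n → ℝ) →ₗ[ℝ] (Fin (m + n) → ℝ) where
  toFun y := Fin.append 0 y
  map_add' x y := by
    ext i
    refine Fin.addCases (fun j => ?_) (fun j => ?_) i <;> simp
  map_smul' r x := by
    ext i
    refine Fin.addCases (fun j => ?_) (fun j => ?_) i <;> simp

theorem freeSum_simplex (hK : IsSimplex K) (hL : IsSimplex L) :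
    ∃ u : Fin (m + n + 2) → (Fin (m + n) → ℝ), P254.freeSum K L = convexHull ℝ (range u) := by
  obtain ⟨v, _, rfl⟩ := hK
  obtain ⟨w, _, rfl⟩ := hL
  let e : Fin (m + n + 2) ≃ Fin (m + 1) ⊕ Fin (n + 1) :=
    (finCongr (by omega : m + n + 2 = (m + 1) + (n + 1))).trans finSumFinEquiv.symm
  refine ⟨Sum.elim (inL m n ∘ v) (inR m n ∘ w) ∘ e, ?_⟩
  rw [e.surjective.range_comp, Set.Sum.elim_range, range_comp, range_comp]
  have e1 : P254.freeSum (convexHull ℝ (range v)) (convexHull ℝ (range w)) =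
      convexHull ℝ (inL m n '' convexHull ℝ (range v) ∪ inR m n '' convexHull ℝ (range w)) := rfl
  rw [e1, LinearMap.image_convexHull, LinearMap.image_convexHull, convexHull_convexHull_union_left,
    convexHull_convexHull_union_right]

end Vale.Agent.P254.FV
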